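import Vale.Agent.P057GH.Grid

/-! Point cells and square grids. -/

set_option linter.all false

open Matrix Finset Function
open Vale.Agent.P267.H775 Vale.Agent.P057G Vale.Agent.P057PC Vale.Agent.P057TP Vale.Agent.P057ST

namespace Vale.Agent.P057GH

noncomputable section

variable {C W S : Type} {T : Tow} {m s : ℕ} {M : ℝ}

theorem ng_empty {L : Type} [Fintype L] [DecidableEq L] [IsEmpty L] (G : Matrix L L ℝ) (v : L → ℝ) :
    ng G v = 1 := by simp [ng, gs, qq, vol, dotProduct]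

theorem er_empty {L : Type} [Fintype L] [DecidableEq L] [IsEmpty L] (G : Matrix L L ℝ)
    (p : (L → ℤ) → L → ℝ) (f : (L → ℤ) → ℝ) : Er G p f = f 0 := by
  rw [Er, tsum_fintype, Fintype.sum_unique, ng_empty, one_mul]
  exact congrArg f (Subsingleton.elim _ _)

variable [Fintype W] [DecidableEq W] [Fintype S] {cl : W → C}

/-- the count on a point cell -/
def pc0 (Z : Sys T W S) (t : S) (f : ℤ → ℝ) : ℝ :=
  Er T.G (fun y a => MvPolynomial.eval (toR y) (Z.fam.at' (some t) ∅ a))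
    fun y => f (Z.off ∅ t + T.el ⬝ᵥ y)

theorem PF_pt [IsEmpty W] [IsEmpty C] [Subsingleton S] (Z : Sys T W S) (t : S) (f : ℤ → ℝ)
    (z : Lb T cl S m → ℤ) : Z.PF cl m f z = Z.F cl m f z ∅ t := by
  rw [Sys.PF, prod_eq_single ∅ (fun c _ h => absurd (Subsingleton.elim _ _) h)
    fun h => absurd (mem_cells.2 ⟨by simp, isEmptyElim⟩) h, Fintype.prod_subsingleton _ t]

theorem pt_low [IsEmpty W] [IsEmpty C] [Subsingleton S] (hT : T.Ok s M) (Z : Sys T W S) (t : S)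
    (f : ℤ → ℝ) : ∑' z, Z.w cl 1 z * Z.PF cl 1 f z = pc0 Z t f := by
  have : IsEmpty (Lb T cl S 1) := ⟨fun l => by have := l.2.1; have := hT.pos l.1.1; omega⟩
  refine (er_empty (Gam T cl S 1) (fun z => Z.pr cl 1 (toR z)) _).trans ?_
  have e : ∀ y : T.ι → ℤ, Sys.full cl 1 0 ∅ t (y ∘ Equiv.subtypeUnivEquiv hT.pos) = y :=
    fun y => funext fun a => dif_pos (hT.pos a)
  rw [PF_pt Z t, F_eq]
  exact er_equiv (Equiv.subtypeUnivEquiv hT.pos) (fun _ _ => rfl)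
    (fun y a => by rw [up, e]; rfl) fun y => by rw [e]

theorem exists_pt [IsEmpty W] [Subsingleton S] (hT : T.Ok s M) (cl : W → C) (t : S) :
    ∃ e : T.ι ≃ Lb T cl S (s + 1), ∀ a, (e a).cd = a ∧ (e a).fc = ∅ ∧ (e a).bs = some t := by
  refine ⟨⟨fun a => ⟨(a, ∅, some t), Nat.lt_succ_of_le (hT.le a), by simp, hT.pos a⟩, Lb.cd,
    fun _ => rfl, fun l => lb_ext rfl (Subsingleton.elim _ _) ?_⟩, fun _ => ⟨rfl, rfl, rfl⟩⟩
  obtain ⟨⟨a, A, o⟩, h1, h2, h3⟩ := l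
  cases o with
  | none =>
    have := hT.pos a
    rw [Subsingleton.elim A ∅] at h3
    exact absurd h3.symm this.ne'
  | some u => exact congrArg some (Subsingleton.elim _ _)

theorem pt_high [IsEmpty W] [IsEmpty C] [Subsingleton S] (hT : T.Ok s M) (Z : Sys T W S) (t : S)
    (f : ℤ → ℝ) : ∑' z, Z.w cl (s + 1) z * Z.PF cl (s + 1) f z = pc0 Z t f := by
  have : IsEmpty {a // s + 1 ≤ T.lv a} := ⟨fun a => by have := a.2; have := hT.le a.1; omega⟩
  obtain ⟨e, he⟩ := exists_pt hT cl t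
  have h1 : ∀ {R : Type} [AddCommMonoid R] (x : Lb T cl S (s + 1) → R),
      pt x (some t) ∅ = x ∘ e := fun x => funext fun a => by
    rw [pt, ← e.sum_comp, Fintype.sum_eq_single a]
    · exact if_pos ⟨(he a).1, (he a).2.1.subset, Or.inr (he a).2.2⟩
    · exact fun b h => if_neg fun k => h ((he b).1.symm.trans k.1)
  refine (er_equiv e (G := Gam T cl S (s + 1)) (p := fun z => Z.pr cl (s + 1) (toR z))
    (f := Z.PF cl (s + 1) f) (fun a b => ?_) (fun z a => ?_) fun z => ?_).symm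
  · rw [Gam, of_apply, if_pos ⟨by rw [(he a).2.1, (he b).2.1], by rw [(he a).2.2, (he b).2.2]⟩,
      (he a).1, (he b).1]
  · simp only [Sys.pr, Fam.alt, (he a).1, (he a).2.1, (he a).2.2, powerset_empty, sum_singleton, h1,
      Nat.sub_self, pow_zero, one_mul]
    rfl
  · have e2 : Sys.full cl (s + 1) z ∅ t 0 = z ∘ e := funext fun a => by
      rw [Sys.full, dif_neg fun k => this.elim ⟨a, k⟩, h1]
    rw [PF_pt Z t, F_eq, er_empty, e2]

theorem pc0_blow (Z : Sys T (Fin 0) Unit) (f : ℤ → ℝ) : pc0 (Z.blow 1) 0 f = pc0 Z () f := by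
  unfold pc0
  simp only [at_blow Z 1 _ (A := ∅) (by simp)]
  rfl

/-- point states -/
theorem gs_pt (hT : T.Ok s M) {f : ℤ → ℝ} {θ : ℝ} :
    GS T 0 f 1 θ ↔ ∃ Z : Sys T (Fin 0) Unit, Z.Ok ∧ θ ≤ pc0 Z () f := by
  refine exists_congr fun Z => and_congr_right fun _ => ?_
  rw [one_pow, pow_one, ← pc0_blow, ← pt_low (cl := Prod.fst) hT]

theorem exists_big (K : ℝ) : ∃ c0 : ℕ, ∀ X : ℝ, (c0 : ℝ) ≤ X → K * (X + 1) ≤ Real.exp X := by
  refine ⟨⌈4 * |K|⌉₊ + 1, fun X h => ?_⟩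
  have h1 := Nat.le_ceil (4 * |K|)
  have h2 := Real.quadratic_le_exp_of_nonneg (x := X) (le_trans (by positivity) h)
  have h3 := le_abs_self K
  have h4 := abs_nonneg K
  push_cast at h
  nlinarith

theorem mass_pt (hC : CUB) (hT : T.Ok s M) {Z : Sys T (Fin 0) Unit} (hZ : Z.Ok) {c : ℝ}
    (h1 : 1 ≤ c) (h2 : (s + 1) ^ s * (c + 1) ≤ Real.exp c) (hL : T.LFd s c c) :
    |∑' z, Z.w id (s + 1) z - 1| ≤ Real.exp (-c) :=
  mass_cub hC hT hZ le_rfl hL (by simpa using h1) (le_trans (by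
    rw [mul_comm]
    refine mul_le_mul_of_nonneg_left ?_ (by positivity)
    simp
    linarith) h2)

theorem ub (hC : CUB) (s : ℕ) : UB s := by
  obtain ⟨c, hc⟩ := exists_big ((s + 1) ^ s)
  refine ⟨c + 1, fun M T f θ hT hf h hL => ?_⟩
  obtain ⟨Z, hZ, h⟩ := (gs_pt hT).1 h
  have h1 := mass_pt hC hT hZ (by simp) (hc _ (by simp)) hL
  have h2 : Real.exp (-((c + 1 : ℕ) : ℝ)) ≤ 1 :=
    Real.exp_le_one_iff.2 (neg_nonpos.2 (Nat.cast_nonneg _))
  rw [← pt_high (cl := id) hT] at h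
  have h3 : ∑' z, Z.w id (s + 1) z * Z.PF id (s + 1) f z ≤
      1 * ms (Gam T id Unit (s + 1)) fun z => Z.pr id (s + 1) (toR z) :=
    er_le (tri_pr hT hZ) (pd_Gam hT.pd _ _ _) fun z => by
      have : IsEmpty {a // s + 1 ≤ T.lv a} := ⟨fun a => by have := a.2; have := hT.le a.1; omega⟩
      rw [PF_pt Z (), F_eq, er_empty]
      exact abs01 hf _
  rw [one_mul] at h3
  have h4 := (abs_le.1 h1).2
  change ms (Gam T id Unit (s + 1)) (fun z => Z.pr id (s + 1) (toR z)) - 1 ≤ _ at h4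
  linarith

/-- a signed state gives a lower bound for the count -/
theorem st_le (hT : T.Ok s M) {Z : Sys T W S} (hZ : Z.Ok) {f : ℤ → ℝ} (hf : Unit01 f)
    {θ B κ σ η : ℝ} (hθ : 0 ≤ θ) (hκ : 0 ≤ κ) (hσ : 0 < σ) (h : Z.St cl m (Z.Ex0 cl m f θ) B κ σ)
    (hm : |∑' z, Z.w cl m z - 1| ≤ η) :
    (1 - η) * θ ^ ((cells cl).card * Fintype.card S) ≤ ∑' z, Z.w cl m z * Z.PF cl m f z := by
  obtain ⟨B', hB⟩ := PF_bdd hT hZ cl m hf
  have s1 := summable_w (cl := cl) (m := m) hT hZ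
  have s2 := summable_mul_real s1 (w_nonneg Z) hB
  have h1 := h.2
  simp only [Sys.Ex0, sub_sub, mul_sub] at h1
  rw [s2.tsum_sub (s1.mul_right _), tsum_mul_right] at h1
  have h2 := (abs_le.1 hm).1
  have h3 : 0 ≤ ∑' z, Z.w cl m z := tsum_nonneg (w_nonneg Z)
  have h4 := pow_nonneg hθ ((cells cl).card * Fintype.card S)
  nlinarith [mul_nonneg h3 hκ]

theorem exp_small {ε X : ℝ} (hε : 0 < ε) (h : 1 / ε ≤ X) : Real.exp (-X) ≤ ε := by
  rw [Real.exp_neg, inv_le_comm₀ (Real.exp_pos _) hε, ← one_div]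
  linarith [Real.add_one_le_exp X]

theorem pt' (hC : CUB) (s : ℕ) : PT s := by
  intro ε hε _
  obtain ⟨c, hc⟩ := exists_big ((s + 1) ^ s)
  refine ⟨c + ⌈1 / ε⌉₊ + 1, fun M T Z f θ B κ σ hT hZ hf hθ hκ hσ h hL => (gs_pt hT).2 ⟨Z, hZ, ?_⟩⟩
  have c0 : (0 : ℝ) ≤ c := c.cast_nonneg
  have c1 := Nat.le_ceil (1 / ε)
  have c2 : 0 < 1 / ε := by positivity
  have h1 := st_le hT hZ hf hθ hκ hσ h ((mass_pt hC hT hZ (by push_cast; linarith)
    (hc _ (by push_cast; linarith)) hL).trans (exp_small hε (by push_cast; linarith)))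
  have e : cells (id : Fin 0 → Fin 0) = {∅} := eq_singleton_iff_unique_mem.2
    ⟨mem_cells.2 ⟨by simp, isEmptyElim⟩, fun _ _ => Subsingleton.elim _ _⟩
  rw [pt_high hT Z (), e] at h1
  simpa using h1

theorem card_cells {C N : Type} [Fintype C] [DecidableEq C] [Fintype N] [DecidableEq N] :
    (cells (Prod.fst : C × N → C)).card = Fintype.card N ^ Fintype.card C := by
  rw [← Fintype.card_fun, ← card_univ]
  refine (card_bij (fun t _ => univ.image fun i => (i, t i)) (fun t _ => mem_cells.2 ⟨?_, fun i =>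
    ⟨_, mem_image_of_mem _ (mem_univ i), rfl⟩⟩) (fun t _ t' _ e => funext fun i => ?_)
    fun c hc => ?_).symm
  · exact injOn_jj (cl := id) (α := t) injective_id.injOn
  · obtain ⟨j, -, h⟩ := mem_image.1 (e ▸ mem_image_of_mem (fun i => (i, t i)) (mem_univ i))
    obtain ⟨rfl, h2⟩ := Prod.mk.inj h
    exact h2.symm
  · obtain ⟨h1, h2⟩ := mem_cells.1 hc
    choose v hv1 hv2 using h2
    refine ⟨fun i => (v i).2, mem_univ _, Finset.ext fun w => ?_⟩
    simp only [mem_image, mem_univ, true_and]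
    refine ⟨fun ⟨i, h⟩ => h ▸ ?_, fun h => ⟨w.1, ?_⟩⟩
    · rw [show (i, (v i).2) = v i from Prod.ext (hv2 i).symm rfl]; exact hv1 i
    · rw [h1 (hv1 w.1) h (hv2 _)]

theorem gh0 (hC : CUB) (s : ℕ) : GH0 s := by
  intro ε hε hε'
  obtain ⟨c, hc⟩ := exists_big ((s + 1) ^ s)
  refine ⟨c + ⌈1 / ε⌉₊ + s + 2,
    fun M T n p Z f θ B κ σ X hT hZ hn hf hθ hp hX hX' hκ hσ h hL => ?_⟩
  have c0 : (0 : ℝ) ≤ c := c.cast_nonneg
  have c1 := Nat.le_ceil (1 / ε)
  have c2 : 0 < 1 / ε := by positivity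
  have c3 : (0 : ℝ) ≤ s := s.cast_nonneg
  have c4 : (n : ℝ) ≤ s := by exact_mod_cast hn
  have c5 : (0 : ℝ) ≤ p := p.cast_nonneg
  push_cast at hX'
  have x1 : X ^ 2 ≤ X ^ (c + ⌈1 / ε⌉₊ + s + 2) := pow_le_pow_right₀ (by linarith) (by omega)
  generalize X ^ (c + ⌈1 / ε⌉₊ + s + 2) = A at x1 hL
  have x2 : (Fintype.card (Fin n × Fin p) + Fintype.card (Fin p) : ℝ) ≤ A := by
    simp only [Fintype.card_prod, Fintype.card_fin, Nat.cast_mul]
    nlinarith
  have h1 := st_le hT hZ hf hθ hκ hσ h ((mass_cub hC hT hZ le_rfl hL x2 (le_trans (by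
    rw [mul_comm]
    exact mul_le_mul_of_nonneg_left (by linarith) (by positivity)) (hc A (by nlinarith)))).trans
    (exp_small hε (by nlinarith)))
  obtain ⟨Z0, h2, h3⟩ := gs_of_grid hp hT hZ hf (n + 1)
  refine ⟨Z0, h2, le_trans ?_ (h1.trans h3)⟩
  rw [card_cells, Fintype.card_fin, Fintype.card_fin, ← pow_succ, mul_pow]
  exact mul_le_mul_of_nonneg_right (pow_le_of_le_one (by linarith) (by linarith) (by positivity))
    (pow_nonneg hθ _)

end

end Vale.Agent.P057GH
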