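import Vale.Agent.P057TP.Plan
import Vale.Agent.P057ST.Cos
import Mathlib.RingTheory.MvPolynomial.Homogeneous

/-! Cube systems: vertex maps, locality, triangularity. -/

set_option linter.all false

open Matrix Finset MvPolynomial
open scoped Kronecker
open Vale.Agent.P267.H775 Vale.Agent.P057G Vale.Agent.P057PC Vale.Agent.P057TP Vale.Agent.P057ST

namespace Vale.Agent.P057GH

noncomputable section

section fam

variable {R ι κ W W' S S' : Type} [CommRing R]

/-- a linear substitution of the vertex variables -/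
def sb (g : W → Lam R W') : Lam R W →+* Lam R W' :=
  (aeval fun x : Option W => x.elim (X none : Lam R W') g).toRingHom

theorem sb_C (g : W → Lam R W') (r : R) : sb g (C r) = C r := by simp [sb]
theorem sb_none (g : W → Lam R W') : sb g (X none) = X none := by simp [sb]
theorem sb_some (g : W → Lam R W') (w : W) : sb g (X (some w)) = g w := by simp [sb]
theorem kt_C (r : R) : kt (C r : Lam R W) = C r := by simp [kt]
theorem kt_none : kt (X none : Lam R W) = 0 := by simp [kt]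
theorem kt_some (w : W) : kt (X (some w) : Lam R W) = X (some w) := by simp [kt]

theorem cc_kt : constantCoeff.comp (kt : Lam R W →+* Lam R W) = constantCoeff := by
  refine ringHom_ext (fun r => by simp [kt_C]) fun x => ?_
  cases x <;> simp [kt_none, kt_some]

/-- substitution in a family -/
def fsb (Ψ : Fam R ι κ W S) (g : W → Lam R W') (k : S' → S) : Fam R ι κ W' S' :=
  ⟨fun o a => map (sb g) (Ψ.fn (o.map k) a)⟩

theorem top_eq {Ψ : Fam R ι κ W S} {lv : ι → ℕ} {lw : κ → ℕ} (h : Ψ.Ok lv lw) (o : Option S)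
    (a : ι) : map constantCoeff (Ψ.fn o a) = Ψ.top a := by
  cases o with
  | none => rfl
  | some s => rw [Fam.top, ← cc_kt, ← MvPolynomial.map_map, ← MvPolynomial.map_map, h.pure]

theorem ok_fsb {Ψ : Fam R ι κ W S} {lv : ι → ℕ} {lw : κ → ℕ} (h : Ψ.Ok lv lw) {g : W → Lam R W'}
    (h1 : ∀ w, (g w).IsHomogeneous 1) (h2 : ∀ w, kt (g w) = g w) (k : S' → S) :
    (fsb Ψ g k).Ok lv lw := by
  refine ⟨fun o a β μ hμ => ?_, fun s a => ?_⟩
  · simp only [fsb, coeff_map] at hμ
    have h0 : coeff β (Ψ.fn (o.map k) a) ≠ 0 := fun e => hμ (by simp [e])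
    obtain ⟨μ0, h3⟩ := ne_zero_iff.1 h0
    have h4 : (coeff β (Ψ.fn (o.map k) a)).IsHomogeneous μ0.degree := fun μ1 h5 => by
      have := (h.hom _ _ _ _ h5).trans (h.hom _ _ _ _ h3).symm
      change (Finsupp.weight fun _ => 1) μ1 = _
      rw [← Finsupp.degree_eq_weight_one]; omega
    have h5 := h4.aeval (fun x : Option W => x.elim (X none : Lam R W') g) (n := 1)
      (fun x => by cases x; exacts [isHomogeneous_X _ _, h1 _]) hμ
    change (Finsupp.weight fun _ => 1) μ = _ at h5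
    rw [← Finsupp.degree_eq_weight_one, one_mul] at h5
    rw [h5]
    exact h.hom _ _ _ _ h3
  · have e : (kt : Lam R W' →+* _).comp (sb g) = (sb g).comp kt := by
      refine ringHom_ext (fun r => by simp [kt_C, sb_C]) fun x => ?_
      cases x <;> simp [kt_none, kt_some, sb_none, sb_some, h2]
    simp only [fsb, MvPolynomial.map_map, e]
    rw [← MvPolynomial.map_map, ← MvPolynomial.map_map, Option.map_some, h.pure]
    rfl

theorem top_fsb (Ψ : Fam R ι κ W S) {g : W → Lam R W'} (h1 : ∀ w, constantCoeff (g w) = 0)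
    (k : S' → S) (a : ι) : (fsb Ψ g k).top a = Ψ.top a := by
  have e : constantCoeff.comp (sb g) = constantCoeff := by
    refine ringHom_ext (fun r => by simp [sb_C]) fun x => ?_
    cases x <;> simp [sb_none, sb_some, h1]
  simp only [Fam.top, fsb, MvPolynomial.map_map, e]
  rfl

theorem at_fsb [DecidableEq W] [DecidableEq W'] (Ψ : Fam R ι κ W S) {g : W → Lam R W'}
    (k : S' → S) (o : Option S') {A : Finset W'} {B : Finset W}
    (h : ∀ w, evA A (g w) = if w ∈ B then 1 else 0) (a : ι) :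
    (fsb Ψ g k).at' o A a = Ψ.at' (o.map k) B a := by
  have e : (evA A).comp (sb g) = evA B := by
    refine ringHom_ext (fun r => by simp [sb_C, evA]) fun x => ?_
    cases x with
    | none => simp [sb_none, evA]
    | some w => rw [RingHom.comp_apply, sb_some, h]; simp [evA]
  simp only [Fam.at', fsb, MvPolynomial.map_map, e]

/-- the sum of the variables over a fibre -/
def fb [Fintype W'] [DecidableEq W] (R : Type) [CommRing R] (j : W' → W) (w : W) : Lam R W' :=
  ∑ w' ∈ univ.filter fun w' => j w' = w, X (some w')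

theorem evA_fb [Fintype W'] [DecidableEq W] [DecidableEq W'] {j : W' → W} {A : Finset W'}
    (h : Set.InjOn j A) (w : W) : evA A (fb R j w) = if w ∈ A.image j then 1 else 0 := by
  simp only [fb, map_sum, evA, eval_X, Option.elim]
  split_ifs with k
  · obtain ⟨v, h1, rfl⟩ := mem_image.1 k
    rw [sum_eq_single v, if_pos h1]
    · exact fun u hu e => if_neg fun m => e (h m h1 (mem_filter.1 hu).2)
    · simp
  · exact sum_eq_zero fun u hu => if_neg fun m => k (mem_image.2 ⟨u, m, (mem_filter.1 hu).2⟩)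

end fam

variable {C C' W W' S S' : Type} {T : Tow} {s : ℕ} {N : ℝ}

/-- the pull back of a system along maps of vertices -/
def pb [Fintype W'] [DecidableEq W] (Z : Sys T W S) (j : W' → W) (k : S' → S) : Sys T W' S' :=
  ⟨fsb Z.fam (fb ℝ j) k, fun c t => Z.off (c.image j) (k t)⟩

theorem ok_sb {Z : Sys T W S} (h : Z.Ok) {α : W → Type} (r : ∀ w, Finset (α w))
    (v : ∀ w, α w → W') (k : S' → S) (off : Finset W' → S' → ℤ) :
    Sys.Ok ⟨fsb Z.fam (fun w => ∑ x ∈ r w, X (some (v w x))) k, off⟩ :=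
  ⟨ok_fsb h.fam (fun w => IsHomogeneous.sum _ _ _ fun _ _ => isHomogeneous_X _ _)
    (fun w => by simp [kt_some]) k, fun a => (top_fsb _ (fun w => by simp) k a).trans (h.top a)⟩

theorem ok_pb [Fintype W'] [DecidableEq W] {Z : Sys T W S} (h : Z.Ok) (j : W' → W) (k : S' → S) :
    (pb Z j k).Ok := ok_sb h _ (fun _ w' => w') k _

theorem ok_blow {n : ℕ} {Z : Sys T (Fin n) Unit} (h : Z.Ok) (p : ℕ) : (Z.blow p).Ok :=
  ok_sb h (fun _ => univ) (fun i l => (i, l)) (fun _ => ()) _

theorem at_pb [Fintype W'] [DecidableEq W] [DecidableEq W'] (Z : Sys T W S) {j : W' → W}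
    (k : S' → S) (o : Option S') {A : Finset W'} (h : Set.InjOn j A) (a : T.ι) :
    (pb Z j k).fam.at' o A a = Z.fam.at' (o.map k) (A.image j) a := at_fsb _ k o (evA_fb h) a

theorem at_blow {n : ℕ} (Z : Sys T (Fin n) Unit) (p : ℕ) (o : Option (Fin p))
    {A : Finset (Fin n × Fin p)} (h : Set.InjOn Prod.fst (A : Set (Fin n × Fin p))) (a : T.ι) :
    (Z.blow p).fam.at' o A a = Z.fam.at' (o.map fun _ => ()) (A.image Prod.fst) a := by
  refine at_fsb Z.fam (g := fun i => ∑ l : Fin p, X (some (i, l))) (fun _ => ()) o (fun i => ?_) a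
  rw [← evA_fb h, fb, sum_filter, Fintype.sum_prod_type, sum_eq_single i] <;> simp +contextual

theorem vars_low (hT : T.Ok s N) {Z : Sys T W S} (h : Z.Ok) (o : Option S) (a j : T.ι)
    (hj : j ∈ (Z.fam.fn o a).vars) : T.lv j < T.lv a := by
  classical
  obtain ⟨β, h1, h2⟩ := (mem_vars j).1 hj
  obtain ⟨μ, h3⟩ := ne_zero_iff.1 (mem_support_iff.1 h1)
  by_cases e : μ = 0
  · refine hT.low a j ((mem_vars j).2 ⟨β, mem_support_iff.2 ?_, h2⟩)
    rw [← h.top, ← top_eq h.fam o, coeff_map]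
    rw [e] at h3
    exact h3
  · have h4 := h.fam.hom _ _ _ _ h3
    have h5 := Finsupp.le_weight T.lv (hT.pos j).ne' β
    have h6 : μ.degree ≠ 0 := fun m => e ((Finsupp.degree_eq_zero_iff μ).1 m)
    have h7 := Finsupp.le_weight_of_ne_zero' T.lv (Finsupp.mem_support_iff.1 h2)
    omega

theorem eval_low [DecidableEq W] (hT : T.Ok s N) {Z : Sys T W S} (h : Z.Ok) (o : Option S)
    (A : Finset W) (a : T.ι) {x x' : T.ι → ℝ} (hx : ∀ j, T.lv j < T.lv a → x j = x' j) :
    eval x (Z.fam.at' o A a) = eval x' (Z.fam.at' o A a) :=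
  eval₂Hom_congr' rfl (fun j hj _ => hx j (vars_low hT h o a j (vars_map _ _ hj))) rfl

variable [Fintype W] [DecidableEq W] [Fintype S] {cl : W → C} {m : ℕ}

theorem lb_ext {l l' : Lb T cl S m} (h1 : l.cd = l'.cd) (h2 : l.fc = l'.fc) (h3 : l.bs = l'.bs) :
    l = l' := Subtype.ext (Prod.ext h1 (Prod.ext h2 h3))

theorem pt_congr {R : Type} [AddCommMonoid R] {x x' : Lb T cl S m → R} {o : Option S}
    {A : Finset W} {a : T.ι}
    (h : ∀ l, l.cd = a → l.fc ⊆ A → (l.bs = none ∨ l.bs = o) → x l = x' l) :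
    pt x o A a = pt x' o A a :=
  sum_congr rfl fun l _ => by
    split_ifs with k
    exacts [h l k.1 k.2.1 k.2.2, rfl]

theorem toR_pt (z : Lb T cl S m → ℤ) (o : Option S) (A : Finset W) (a : T.ι) :
    ((pt z o A a : ℤ) : ℝ) = pt (toR z) o A a := by
  simp only [pt, Int.cast_sum, toR_apply, apply_ite (Int.cast : ℤ → ℝ), Int.cast_zero]

/-- the centre of a label sees only lower levels on subfaces -/
theorem pr_congr (hT : T.Ok s N) {Z : Sys T W S} (h : Z.Ok) {x x' : Lb T cl S m → ℝ}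
    {l : Lb T cl S m} (hx : ∀ l', l'.fc ⊆ l.fc → (l'.bs = none ∨ l'.bs = l.bs) →
      T.lv l'.cd < T.lv l.cd → x l' = x' l') : Z.pr cl m x l = Z.pr cl m x' l :=
  sum_congr rfl fun B hB => by
    rw [eval_low hT h _ _ _ fun j hj => pt_congr fun l' h1 h2 h3 =>
      hx l' (h2.trans (mem_powerset.1 hB)) h3 (h1 ▸ hj)]

theorem tri_pr (hT : T.Ok s N) {Z : Sys T W S} (h : Z.Ok) :
    Tri (fun l : Lb T cl S m => T.lv l.cd) fun z => Z.pr cl m (toR z) :=
  fun l z z' k => pr_congr hT h fun l' _ _ h3 => by rw [toR_apply, toR_apply, k l' h3]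

theorem tri_pq (hT : T.Ok s N) {Z : Sys T W S} (h : Z.Ok) (Q : Lb T cl S m → Prop)
    (c : {l // Q l} → ℝ) : Tri (fun l => T.lv l.1.cd) (Z.pq cl m Q c) := fun l z z' k => by
  unfold Sys.pq
  rw [pr_congr hT h fun l' _ _ h3 => ?_]
  split_ifs with e
  exacts [by rw [k ⟨l', e⟩ h3], rfl]

theorem pd_Gam (hG : T.G.PosDef) (cl : W → C) (S : Type) [Fintype S] (m : ℕ) :
    (Gam T cl S m).PosDef := by
  classical
  have h1 := (hG.kronecker (PosDef.one (n := Finset W × Option S) (R := ℝ))).submatrix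
    (e := fun a : Lb T cl S m => a.1) Subtype.val_injective
  have h2 : Gam T cl S m = (T.G ⊗ₖ (1 : Matrix (Finset W × Option S) _ ℝ)).submatrix
      (fun a : Lb T cl S m => a.1) fun a : Lb T cl S m => a.1 := by
    ext a b
    simp [Gam, one_apply, Prod.ext_iff, Lb.fc, Lb.bs, Lb.cd]
    congr
  rw [h2]
  exact h1

theorem w_nonneg (Z : Sys T W S) (z : Lb T cl S m → ℤ) : 0 ≤ Z.w cl m z := ng_nonneg _ _

theorem summable_w (hT : T.Ok s N) {Z : Sys T W S} (h : Z.Ok) : Summable (Z.w cl m) :=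
  summable_ng (tri_pr hT h) (pd_Gam hT.pd cl S m)

/-- systems with the same polynomials on faces have the same centres -/
theorem pr_ext {Z Z' : Sys T W S} {l : Lb T cl S m}
    (h : ∀ B ⊆ l.fc, Z.fam.at' l.bs B l.cd = Z'.fam.at' l.bs B l.cd) (x : Lb T cl S m → ℝ) :
    Z.pr cl m x l = Z'.pr cl m x l :=
  sum_congr rfl fun B hB => by rw [h B (mem_powerset.1 hB)]

theorem F_ext {Z Z' : Sys T W S} {c : Finset W} {t : S}
    (h : ∀ a, m ≤ T.lv a → Z.fam.at' (some t) c a = Z'.fam.at' (some t) c a)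
    (h2 : Z.off c t = Z'.off c t) (f : ℤ → ℝ) (z : Lb T cl S m → ℤ) :
    Z.F cl m f z c t = Z'.F cl m f z c t := by
  unfold Sys.F
  simp only [h2, fun a : {a // m ≤ T.lv a} => h a.1 a.2]

theorem F_congr (Z : Sys T W S) (f : ℤ → ℝ) {z z' : Lb T cl S m → ℤ} {c : Finset W} {t : S}
    (h : ∀ l, l.fc ⊆ c → (l.bs = none ∨ l.bs = some t) → z l = z' l) :
    Z.F cl m f z c t = Z.F cl m f z' c t := by
  have : ∀ y, Sys.full cl m z c t y = Sys.full cl m z' c t y := fun y => funext fun a => by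
    unfold Sys.full
    rw [pt_congr fun l _ => h l]
  unfold Sys.F
  simp only [this]

/-- the centres of the upper levels on a cell -/
def up (Z : Sys T W S) (cl : W → C) (m : ℕ) (z : Lb T cl S m → ℤ) (c : Finset W) (t : S)
    (y : {a // m ≤ T.lv a} → ℤ) (a : {a // m ≤ T.lv a}) : ℝ :=
  eval (toR (Sys.full cl m z c t y)) (Z.fam.at' (some t) c a)

theorem F_eq (Z : Sys T W S) (f : ℤ → ℝ) (z : Lb T cl S m → ℤ) (c : Finset W) (t : S) :
    Z.F cl m f z c t = Er (bk T.G fun a => m ≤ T.lv a) (up Z cl m z c t)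
      fun y => f (Z.off c t + T.el ⬝ᵥ Sys.full cl m z c t y) := rfl

theorem tri_up (hT : T.Ok s N) {Z : Sys T W S} (h : Z.Ok) (z : Lb T cl S m → ℤ) (c : Finset W)
    (t : S) : Tri (fun a => T.lv a.1) (up Z cl m z c t) := fun a y y' k =>
  eval_low hT h _ _ _ fun j hj => by
    simp only [toR_apply, Sys.full]
    split_ifs with e
    exacts [by rw [k ⟨j, e⟩ hj], rfl]

theorem F_nonneg (Z : Sys T W S) {f : ℤ → ℝ} (hf : Unit01 f) (z : Lb T cl S m → ℤ) (c : Finset W)
    (t : S) : 0 ≤ Z.F cl m f z c t := er_nonneg _ _ fun _ => (hf _).1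

theorem abs01 {f : ℤ → ℝ} (hf : Unit01 f) (x : ℤ) : |f x| ≤ 1 := by
  rw [abs_of_nonneg (hf x).1]; exact (hf x).2

theorem F_le_ms (hT : T.Ok s N) {Z : Sys T W S} (h : Z.Ok) {f : ℤ → ℝ} (hf : Unit01 f)
    (z : Lb T cl S m → ℤ) (c : Finset W) (t : S) :
    Z.F cl m f z c t ≤ ms (bk T.G fun a => m ≤ T.lv a) (up Z cl m z c t) := by
  rw [F_eq, ← one_mul (ms _ _)]
  exact er_le (tri_up hT h z c t) (posDef_bk hT.pd _) fun _ => abs01 hf _

theorem F_bdd (hT : T.Ok s N) {Z : Sys T W S} (h : Z.Ok) (cl : W → C) (m : ℕ) {f : ℤ → ℝ}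
    (hf : Unit01 f) : ∃ M, ∀ z c t, Z.F cl m f z c t ≤ M := by
  obtain ⟨B, hB⟩ := ms_bdd (posDef_bk hT.pd fun a => m ≤ T.lv a)
  exact ⟨B, fun z c t => (F_le_ms hT h hf z c t).trans (hB _ _ (tri_up hT h z c t))⟩

theorem PF_nonneg (Z : Sys T W S) {f : ℤ → ℝ} (hf : Unit01 f) (z : Lb T cl S m → ℤ) :
    0 ≤ Z.PF cl m f z := prod_nonneg fun _ _ => prod_nonneg fun _ _ => F_nonneg Z hf _ _ _

theorem PF_bdd (hT : T.Ok s N) {Z : Sys T W S} (h : Z.Ok) (cl : W → C) (m : ℕ) {f : ℤ → ℝ}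
    (hf : Unit01 f) : ∃ M, ∀ z, |Z.PF cl m f z| ≤ M := by
  obtain ⟨B, hB⟩ := F_bdd hT h cl m hf
  refine ⟨∏ c ∈ cells cl, ∏ t : S, B, fun z => ?_⟩
  rw [abs_of_nonneg (PF_nonneg Z hf z)]
  exact prod_le_prod (fun _ _ => prod_nonneg fun _ _ => F_nonneg Z hf _ _ _) fun _ _ =>
    prod_le_prod (fun _ _ => F_nonneg Z hf _ _ _) fun _ _ => hB _ _ _

variable [Fintype W'] [DecidableEq W'] [Fintype S'] {cl' : W' → C'} {j : W' → W} {k : S' → S}

theorem injOn_of (hc : ∀ w w', cl (j w) = cl (j w') ↔ cl' w = cl' w') {A : Finset W'}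
    (h : Set.InjOn cl' A) : Set.InjOn j A := fun _ a _ b e => h a b ((hc _ _).1 (congrArg cl e))

/-- the image of a label under maps of vertices that respect the classes -/
def lift (hc : ∀ w w', cl (j w) = cl (j w') ↔ cl' w = cl' w') (k : S' → S) (l : Lb T cl' S' m) :
    Lb T cl S m :=
  ⟨(l.cd, l.fc.image j, l.bs.map k), l.2.1, by
    rintro _ a _ b e
    obtain ⟨u, hu, rfl⟩ := mem_image.1 a
    obtain ⟨v, hv, rfl⟩ := mem_image.1 b
    rw [l.2.2.1 hu hv ((hc _ _).1 e)], by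
    have := l.2.2.2
    simp only [card_image_of_injOn (injOn_of hc l.2.2.1), Lb.fc, Lb.bs, Lb.cd]
    cases e : l.1.2.2 <;> simpa [e] using this⟩

variable (hc : ∀ w w', cl (j w) = cl (j w') ↔ cl' w = cl' w')

theorem lift_cd (l : Lb T cl' S' m) : (lift hc k l).cd = l.cd := rfl
theorem lift_fc (l : Lb T cl' S' m) : (lift hc k l).fc = l.fc.image j := rfl
theorem lift_bs (l : Lb T cl' S' m) : (lift hc k l).bs = l.bs.map k := rfl

theorem lift_inj (hj : j.Injective) (hk : k.Injective) :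
    (lift hc k : Lb T cl' S' m → _).Injective := fun l l' e =>
  lb_ext (congrArg Lb.cd e :) (image_injective hj (congrArg Lb.fc e))
    (Option.map_injective hk (congrArg Lb.bs e))

theorem mem_lift (hj : j.Injective) {l : Lb T cl S m} {B : Finset W'} {o : Option S'}
    (h1 : l.fc ⊆ B.image j) (h2 : l.bs = none ∨ l.bs = o.map k) : l ∈ Set.range (lift hc k) := by
  obtain ⟨A, -, hA⟩ := subset_image_iff.1 h1
  obtain ⟨o', ho⟩ : ∃ o' : Option S', o'.map k = l.bs := by
    rcases h2 with e | e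
    exacts [⟨none, e.symm⟩, ⟨o, e.symm⟩]
  refine ⟨⟨(l.cd, A, o'), l.2.1, fun u hu v hv e => hj (l.2.2.1 ?_ ?_ ((hc _ _).2 e)), ?_⟩,
    lb_ext rfl hA ho⟩
  · exact hA.subset (mem_image_of_mem j hu)
  · exact hA.subset (mem_image_of_mem j hv)
  · have := l.2.2.2
    change l.bs.elim (l.fc.card = _) (fun _ => l.fc.card < _) at this
    rw [← hA, ← ho, card_image_of_injective _ hj] at this
    cases o' <;> exact this

theorem pt_lift (hj : j.Injective) (hk : k.Injective) {R : Type} [AddCommMonoid R]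
    (x : Lb T cl S m → R) (o : Option S') (B : Finset W') (a : T.ι) :
    pt (x ∘ lift hc k) o B a = pt x (o.map k) (B.image j) a := by
  refine Fintype.sum_of_injective _ (lift_inj hc hj hk) _ _
    (fun l hl => if_neg fun e => hl (mem_lift hc hj e.2.1 e.2.2)) fun l => ?_
  refine @if_congr _ _ _ (_) (_) _ _ _ _ ?_ rfl rfl
  rw [lift_cd, lift_fc, lift_bs, image_subset_image_iff hj, Option.map_eq_none_iff,
    (Option.map_injective hk).eq_iff]

theorem pr_lift (hj : j.Injective) (hk : k.Injective) (Z : Sys T W S) (x : Lb T cl S m → ℝ)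
    (l : Lb T cl' S' m) : (pb Z j k).pr cl' m (x ∘ lift hc k) l = Z.pr cl m x (lift hc k l) := by
  unfold Sys.pr Fam.alt
  rw [lift_fc, powerset_image, sum_image fun _ _ _ _ e => image_injective hj e]
  refine sum_congr rfl fun B _ => ?_
  rw [card_image_of_injective _ hj, card_image_of_injective _ hj, at_pb _ _ _ hj.injOn,
    funext (pt_lift hc hj hk x l.bs B)]
  rfl

theorem F_lift (hj : j.Injective) (hk : k.Injective) (Z : Sys T W S) (f : ℤ → ℝ)
    (z : Lb T cl S m → ℤ) (c : Finset W') (t : S') :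
    (pb Z j k).F cl' m f (z ∘ lift hc k) c t = Z.F cl m f z (c.image j) (k t) := by
  have : ∀ y, Sys.full cl' m (z ∘ lift hc k) c t y = Sys.full cl m z (c.image j) (k t) y :=
    fun y => funext fun a => by
      unfold Sys.full
      rw [pt_lift hc hj hk]
      rfl
  unfold Sys.F
  simp only [this, at_pb _ _ _ hj.injOn]
  rfl

theorem Gam_lift (hj : j.Injective) (hk : k.Injective) (l l' : Lb T cl' S' m) :
    Gam T cl S m (lift hc k l) (lift hc k l') = Gam T cl' S' m l l' := by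
  refine @if_congr _ _ _ (_) (_) _ _ _ _ ?_ rfl rfl
  rw [lift_fc, lift_bs, lift_fc, lift_bs, (image_injective hj).eq_iff,
    (Option.map_injective hk).eq_iff]

end

end Vale.Agent.P057GH
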