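import Vale.Agent.P057GH.Face

/-! Cells, grids, homogeneous grids and the linear forms condition. -/

set_option linter.all false

open Matrix Finset Function
open Vale.Agent.P267.H775 Vale.Agent.P057G Vale.Agent.P057PC Vale.Agent.P057TP Vale.Agent.P057ST
open Vale.Agent.P057MA Vale.Agent.P057RH

namespace Vale.Agent.P057GH

noncomputable section

variable {C N W S : Type} {T : Tow} {m s : ℕ} {M : ℝ}

section sim

variable [Fintype W] [DecidableEq W] [Fintype S] {cl : W → C}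

theorem mem_cells {c : Finset W} : c ∈ cells cl ↔ Set.InjOn cl c ∧ ∀ i, ∃ v ∈ c, cl v = i := by
  simp [P057TP.cells]

/-- the same polynomials on all faces, the same offsets on all cells -/
def Sim (cl : W → C) (Z Z' : Sys T W S) : Prop :=
  (∀ o (A : Finset W), Set.InjOn cl A → ∀ a, Z.fam.at' o A a = Z'.fam.at' o A a) ∧
    ∀ c ∈ cells cl, ∀ t, Z.off c t = Z'.off c t

variable {Z Z' : Sys T W S}

theorem Sim.pr (h : Sim cl Z Z') (x : Lb T cl S m → ℝ) : Z.pr cl m x = Z'.pr cl m x :=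
  funext fun l => pr_ext (fun B hB => h.1 _ B (l.2.2.1.mono hB) _) x

theorem Sim.w (h : Sim cl Z Z') (z : Lb T cl S m → ℤ) : Z.w cl m z = Z'.w cl m z := by
  simp only [Sys.w, Sys.ps, h.pr]

theorem Sim.PF (h : Sim cl Z Z') (f : ℤ → ℝ) (z : Lb T cl S m → ℤ) :
    Z.PF cl m f z = Z'.PF cl m f z :=
  prod_congr rfl fun c hc => prod_congr rfl fun t _ =>
    F_ext (fun a _ => h.1 _ c (mem_cells.1 hc).1 a) (h.2 c hc t) f z

theorem er_equiv {K L : Type} [Fintype K] [DecidableEq K] [Fintype L] [DecidableEq L] (e : K ≃ L)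
    {G : Matrix L L ℝ} {G' : Matrix K K ℝ} {p : (L → ℤ) → L → ℝ} {p' : (K → ℤ) → K → ℝ}
    {f : (L → ℤ) → ℝ} {f' : (K → ℤ) → ℝ} (hG : ∀ i j, G' i j = G (e i) (e j))
    (hp : ∀ z i, p' (z ∘ e) i = p z (e i)) (hf : ∀ z, f' (z ∘ e) = f z) :
    Er G' p' f' = Er G p f := by
  have := Ex_equiv e hG hp (f := fun z => f z) (f' := fun z => f' z) fun z => by rw [hf]
  rwa [Ex_er, Ex_er, Complex.ofReal_inj] at this

/-- the counting lemma with the standard Gram matrix -/
theorem cub_q (hC : CUB) (hT : T.Ok s M) (hZ : Z.Ok) {Q : Lb T cl S m → Prop}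
    [i1 : Fintype {l // Q l}] [i2 : DecidableEq {l // Q l}] (h1 : Clo Q)
    (h2 : ∀ l l', Q l → l'.fc = l.fc → l'.bs = l.bs → Q l') {d : ℕ} (hd : m ≤ d + 1) {n A : ℝ}
    (hL : T.LFd d n A) (hn : (Fintype.card W + Fintype.card S : ℝ) ≤ n)
    (hA : (Fintype.card W + Fintype.card S + 1 : ℝ) * (s + 1) ^ s ≤ Real.exp A)
    (c : {l // Q l} → ℝ) : |ms (bk (Gam T cl S m) Q) (Z.pq cl m Q c) - 1| ≤ Real.exp (-A) := by
  obtain rfl := Subsingleton.elim i1 (@Subtype.fintype _ Q (fun _ => Classical.propDecidable _) _)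
  obtain rfl := Subsingleton.elim i2 fun a b => Subtype.instDecidableEq a b
  letI : DecidablePred Q := fun _ => Classical.propDecidable _
  have hp := posDef_bk (pd_Gam hT.pd cl S m) Q
  refine hC T s M C W S cl m Z Q c d (Fintype.card W + Fintype.card S) (Real.exp A) _ _ hT hZ h1
    (fun l l' a b c _ => h2 l l' a b c) (fun l _ => by have := l.2.1; unfold Lb.cd; omega)
    (fun M V L _ _ _ _ D h3 h4 => hL M V L D h3 (h4.trans (Nat.le_floor (by exact_mod_cast hn))))
    le_rfl hp fun v => le_mul_of_one_le_left (qq_nonneg hp.posSemidef v) ?_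
  rw [le_div_iff₀ (by positivity), one_mul]
  exact_mod_cast hA

theorem mass_cub (hC : CUB) (hT : T.Ok s M) (hZ : Z.Ok) {d : ℕ} (hd : m ≤ d + 1) {n A : ℝ}
    (hL : T.LFd d n A) (hn : (Fintype.card W + Fintype.card S : ℝ) ≤ n)
    (hA : (Fintype.card W + Fintype.card S + 1 : ℝ) * (s + 1) ^ s ≤ Real.exp A) :
    |∑' z, Z.w cl m z - 1| ≤ Real.exp (-A) := by
  classical
  have h := cub_q (cl := cl) (Q := fun _ => True) hC hT hZ (fun _ _ _ _ _ _ => trivial)
    (fun _ _ _ _ _ => trivial) hd hL hn hA 0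
  rw [ms_equiv (Equiv.subtypeUnivEquiv fun _ => trivial) (G := Gam T cl S m)
    (G' := bk (Gam T cl S m) fun _ => True) (p := fun z => Z.pr cl m (toR z)) (fun _ _ => rfl)
    fun z i => ?_] at h
  · exact h
  · rw [Sys.pq, Pi.zero_apply, add_zero]
    exact congrFun (congrArg (Z.pr cl m) (funext fun l => dif_pos trivial)) _

end sim

variable [Fintype C] [DecidableEq C] [Fintype N] [DecidableEq N] [Fintype W] [DecidableEq W]
  [Fintype S] {cl : W → C} {α : W → N} {k : S → N} {c0 : N}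

/-- the embedding of the vertices in the grid -/
def jj (cl : W → C) (α : W → N) (w : W) : C × N := (cl w, α w)

theorem jj_hc (cl : W → C) (α : W → N) (w w' : W) :
    Prod.fst (jj cl α w) = Prod.fst (jj cl α w') ↔ cl w = cl w' := Iff.rfl

/-- the vertex sets in the grid -/
def AA (cl : W → C) (α : W → N) (k : S → N) (x : Option C) : Finset N :=
  x.elim (univ.image k) fun i => (univ.filter fun w => cl w = i).image α

theorem mem_AA {i : C} {n : N} : n ∈ AA cl α k (some i) ↔ ∃ w, jj cl α w = (i, n) := by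
  simp [AA, jj]

theorem mem_AA' {n : N} : n ∈ AA cl α k none ↔ ∃ t, k t = n := by simp [AA]

theorem rect_fo {B : Finset (C × N)} (hB : Set.InjOn Prod.fst (B : Set (C × N))) {o : Option N} :
    rect (AA cl α k) (fo B o) ↔ B ⊆ univ.image (jj cl α) ∧ ∃ o' : Option S, o = o'.map k := by
  refine ⟨fun h => ⟨fun w hw => ?_, ?_⟩, fun h x n e => ?_⟩
  · simpa using mem_AA.1 (h (some w.1) w.2 ((fo_some hB o).2 hw))
  · cases o with
    | none => exact ⟨none, rfl⟩
    | some n => obtain ⟨t, rfl⟩ := mem_AA'.1 (h none n rfl); exact ⟨some t, rfl⟩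
  · cases x with
    | none =>
      obtain ⟨o', rfl⟩ := h.2
      obtain ⟨t, -, h2⟩ := Option.map_eq_some_iff.1 e
      exact mem_AA'.2 ⟨t, h2⟩
    | some i => exact mem_AA.2 (by simpa using h.1 ((fo_some hB o).1 e))

theorem range_lift (hj : Injective (jj cl α)) (l : LG T C N m) :
    l ∈ Set.range (lift (jj_hc cl α) k) ↔ rect (AA cl α k) (fl l) := by
  rw [fl, rect_fo (B := l.fc) l.2.2.1]
  refine ⟨?_, fun ⟨h1, o, h2⟩ => mem_lift _ hj h1 (Or.inr h2)⟩
  rintro ⟨l', rfl⟩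
  exact ⟨image_subset_image (subset_univ _), l'.bs, rfl⟩

theorem fo_em (χ : Option C → N) :
    fo (univ.image (em χ)) (some (χ none)) = fun x => some (χ x) := by
  funext x
  cases x with
  | none => rfl
  | some i =>
    refine (fo_some ?_ _).2 (mem_image_of_mem (em χ) (mem_univ i))
    rw [coe_image]
    rintro _ ⟨a, -, rfl⟩ _ ⟨b, -, rfl⟩ e
    exact congrArg (em χ) e

theorem full_eq {φ : Fc (Option C) N} (h : sp φ = univ) (x : Option C) : φ x = some (ch c0 φ x) := by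
  obtain ⟨l, hl⟩ := Option.ne_none_iff_exists'.1 (mem_sp.1 (h ▸ mem_univ x))
  rw [ch, hl]; rfl

theorem injOn_jj {c : Finset W} (h : Set.InjOn cl c) :
    Set.InjOn Prod.fst (c.image (jj cl α) : Set (C × N)) := by
  rw [coe_image]
  rintro _ ⟨a, ha, rfl⟩ _ ⟨b, hb, rfl⟩ e
  rw [h ha hb e]

open Classical in
theorem prod_cells (hj : Injective (jj cl α)) (hk : Injective k) {R : Type} [CommMonoid R]
    (G : Finset (C × N) → N → R) :
    (∏ φ : Fc (Option C) N, if rect (AA cl α k) φ then if sp φ = univ then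
      G (univ.image (em (ch c0 φ))) (ch c0 φ none) else 1 else 1) =
      ∏ c ∈ cells cl, ∏ t, G (c.image (jj cl α)) (k t) := by
  have key : ∀ c ∈ cells cl, ∀ t, sp (fo (c.image (jj cl α)) (some (k t))) = univ := fun c hc t =>
    eq_univ_of_forall fun x => mem_sp.2 (by
      cases x with
      | none => exact Option.some_ne_none _
      | some i =>
        obtain ⟨v, h1, rfl⟩ := (mem_cells.1 hc).2 i
        rw [(fo_some (injOn_jj (mem_cells.1 hc).1) _).2 (mem_image_of_mem (jj cl α) h1)]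
        exact Option.some_ne_none _)
  have key2 : ∀ c ∈ cells cl, ∀ t, univ.image (em (ch c0 (fo (c.image (jj cl α)) (some (k t))))) =
      c.image (jj cl α) := fun c hc t => by
    ext w
    rw [← fo_some (injOn_jj (mem_cells.1 hc).1) (some (k t)), full_eq (c0 := c0) (key c hc t)]
    simp only [mem_image, mem_univ, true_and, em, Option.some.injEq]
    exact ⟨fun ⟨i, h⟩ => h ▸ rfl, fun h => ⟨w.1, by rw [h]⟩⟩
  simp only [← ite_and]
  rw [← prod_filter, ← prod_product']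
  refine (prod_bij (fun p _ => fo (p.1.image (jj cl α)) (some (k p.2))) (fun p hp => ?_)
    (fun p hp q hq e => ?_) (fun φ hφ => ?_) fun p hp => ?_).symm
  · have h := (mem_product.1 hp).1
    exact mem_filter.2 ⟨mem_univ _, (rect_fo (injOn_jj (mem_cells.1 h).1)).2
      ⟨image_subset_image (subset_univ _), some p.2, rfl⟩, key _ h _⟩
  · refine Prod.ext (image_injective hj ?_) (hk (Option.some.inj (congrFun e none)))
    rw [← key2 _ (mem_product.1 hp).1 p.2, e, key2 _ (mem_product.1 hq).1]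
  · obtain ⟨h1, h2⟩ := (mem_filter.1 hφ).2
    obtain ⟨t, ht⟩ := mem_AA'.1 (h1 none _ (full_eq (c0 := c0) h2 none))
    choose v hv using fun i => mem_AA.1 (h1 (some i) _ (full_eq (c0 := c0) h2 (some i)))
    have e : (univ.image v).image (jj cl α) = univ.image (em (ch c0 φ)) := by
      rw [image_image]; exact image_congr fun i _ => hv i
    have e2 : ∀ i, cl (v i) = i := fun i => congrArg Prod.fst (hv i)
    refine ⟨(univ.image v, t), mem_product.2 ⟨mem_cells.2 ⟨?_, fun i =>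
      ⟨v i, mem_image_of_mem v (mem_univ i), e2 i⟩⟩, mem_univ _⟩, ?_⟩
    · rw [coe_image]
      rintro _ ⟨a, -, rfl⟩ _ ⟨b, -, rfl⟩ h
      rw [e2, e2] at h
      rw [h]
    · rw [e, ht, fo_em]
      exact funext fun x => (full_eq h2 x).symm
  · rw [key2 _ (mem_product.1 hp).1]; rfl

/-- the function of a cell as a local factor -/
def tF (Z : Sys T (C × N) N) (m : ℕ) (f : ℤ → ℝ) (c0 : N) (φ : Fc (Option C) N)
    (u : Vw (Option C) (L0 T C m → ℤ)) : ℝ :=
  if sp φ = univ then (rc Z (ch c0 φ)).F id m f (uz fc0 u) univ () else 1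

theorem tF_cz (Z : Sys T (C × N) N) (f : ℤ → ℝ) (x : LG T C N m → ℤ) (φ : Fc (Option C) N) :
    tF Z m f c0 φ (vw (cz c0 x) φ) = if sp φ = univ then
      Z.F Prod.fst m f x (univ.image (em (ch c0 φ))) (ch c0 φ none) else 1 := by
  unfold tF
  split_ifs with h
  · rw [show uz fc0 (vw (cz c0 x) φ) = x ∘ lc (ch c0 φ) from funext fun l => by
      rw [uz_cz, if_pos (h ▸ subset_univ _)]; rfl]
    exact F_lift _ (em_inj _) (unit_inj _) Z f x univ ()
  · rfl

theorem tF_nonneg (Z : Sys T (C × N) N) {f : ℤ → ℝ} (hf : Unit01 f) (φ : Fc (Option C) N)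
    (u : Vw (Option C) (L0 T C m → ℤ)) : 0 ≤ tF Z m f c0 φ u := by
  unfold tF; split_ifs
  exacts [F_nonneg _ hf _ _ _, zero_le_one]

theorem F_unif (hT : T.Ok s M) (m : ℕ) : ∃ B, 1 ≤ B ∧ ∀ (C W S : Type) [Fintype W] [DecidableEq W]
    [Fintype S] (cl : W → C) (Z : Sys T W S) (f : ℤ → ℝ), Z.Ok → Unit01 f → ∀ z c t,
    Z.F cl m f z c t ≤ B := by
  obtain ⟨B, hB⟩ := ms_bdd (posDef_bk hT.pd fun a => m ≤ T.lv a)
  exact ⟨max B 1, le_max_right _ _, fun C W S _ _ _ cl Z f h hf z c t =>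
    ((F_le_ms hT h hf z c t).trans (hB _ _ (tri_up hT h z c t))).trans (le_max_left _ _)⟩

theorem tF_bdd (hT : T.Ok s M) {Z : Sys T (C × N) N} (h : Z.Ok) {f : ℤ → ℝ} (hf : Unit01 f) :
    ∃ B, ∀ φ u, |tF Z m f c0 φ u| ≤ B := by
  obtain ⟨B, h1, hB⟩ := F_unif hT m
  refine ⟨B, fun φ u => ?_⟩
  rw [abs_of_nonneg (tF_nonneg Z hf φ u)]
  unfold tF; split_ifs
  exacts [hB _ _ _ _ _ _ (ok_pb h _ _) hf _ _ _, h1]

variable {Z : Sys T W S} {Y : Sys T (C × N) N}

open Classical in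
theorem tm_w (hG : T.G.PosDef) (hj : Injective (jj cl α)) (hk : Injective k)
    (h : Sim cl Z (pb Y (jj cl α) k)) (g : Fc (Option C) N → Vw (Option C) (L0 T C m → ℤ) → ℝ)
    (x : Lb T cl S m → ℤ) : tm (fun _ _ => 1) 0 (rect (AA cl α k)) (fun φ u => hz Y m c0 φ u * g φ u)
      (cz c0 (extend (lift (jj_hc cl α) k) x 0)) = Z.w cl m x * ∏ φ, if rect (AA cl α k) φ then
        g φ (vw (cz c0 (extend (lift (jj_hc cl α) k) x 0)) φ) else 1 := by
  have hl := lift_inj (m := m) (T := T) (jj_hc cl α) hj hk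
  rw [tm_cz hG hl (range_lift hj), h.w, Sys.w]
  congr 2
  · ext l l'
    exact Gam_lift _ hj hk l l'
  · funext l
    simp only [Sys.ps, Pi.sub_apply, ← pr_lift _ hj hk]
    congr 2
    funext l'
    simp only [Function.comp, toR_apply, hl.extend_apply]

theorem tm_PF (hG : T.G.PosDef) (hj : Injective (jj cl α)) (hk : Injective k)
    (h : Sim cl Z (pb Y (jj cl α) k)) (f : ℤ → ℝ) (x : Lb T cl S m → ℤ) :
    tm (fun _ _ => 1) 0 (rect (AA cl α k)) (fun φ u => hz Y m c0 φ u * tF Y m f c0 φ u)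
      (cz c0 (extend (lift (jj_hc cl α) k) x 0)) = Z.w cl m x * Z.PF cl m f x := by
  have hl := lift_inj (m := m) (T := T) (jj_hc cl α) hj hk
  rw [tm_w hG hj hk h, h.PF]
  simp only [tF_cz]
  rw [prod_cells hj hk fun c t => Y.F Prod.fst m f (extend (lift (jj_hc cl α) k) x 0) c t]
  refine congrArg _ (prod_congr rfl fun c _ => prod_congr rfl fun t _ => ?_)
  rw [← F_lift (jj_hc cl α) hj hk, Function.extend_comp hl]

/-- the count of a system is a face sum -/
theorem lt_PF (hG : T.G.PosDef) (hj : Injective (jj cl α)) (hk : Injective k)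
    (h : Sim cl Z (pb Y (jj cl α) k)) (f : ℤ → ℝ) :
    Lt (fun _ _ => 1) 0 (rect (AA cl α k)) (fun φ u => hz Y m c0 φ u * tF Y m f c0 φ u) =
      ∑' x, Z.w cl m x * Z.PF cl m f x := by
  simp only [← tm_PF (c0 := c0) hG hj hk h]
  exact face_tsum hG (lift_inj _ hj hk) (range_lift hj) Y _ (fun _ r => r) fun _ => rfl

/-- the function of the model cell -/
def F0 (Z : Sys T C Unit) (m : ℕ) (f : ℤ → ℝ) (u : Vw (Option C) (L0 T C m → ℤ)) : ℝ :=
  Z.F id m f (uz fc0 u) univ ()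

/-- one cell is at least as good as the grid -/
theorem col_grid (hT : T.Ok s M) (hY : Y.Ok) {f : ℤ → ℝ} (hf : Unit01 f) (c0 : N)
    (A : Option C → Finset N) : ∃ t : Option C → N,
      Lt (fun _ _ => 1) 0 (rect A) (fun φ u => hz Y m c0 φ u * tF Y m f c0 φ u) ≤
        gt (nu (S0 T C m ((rc Y t).pr id m)) univ) 0 A univ c0 fun _ => F0 (rc Y t) m f := by
  have : Nonempty N := ⟨c0⟩
  obtain ⟨B, hB⟩ := tF_bdd (m := m) (c0 := c0) hT hY hf
  have h1 : Summable (tm (fun _ _ => 1) 0 (rect A) fun φ u => hz Y m c0 φ u * tF Y m f c0 φ u) :=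
    summable_hz (Z := fun φ => rc Y (ch c0 φ)) hT (fun φ => ok_pb hY _ _) c0 hB
  have h2 : ∀ t, (fun φ u => hz Y m c0 (P057RH.col t φ) u * tF Y m f c0 (P057RH.col t φ) u) =
      fun φ u => nu (S0 T C m ((rc Y t).pr id m)) univ (sp φ) u *
        cel univ c0 (fun _ => F0 (rc Y t) m f) φ u := fun t => by
    funext φ u
    rw [hz_col, tF, cel, sp_col]
    split_ifs with e
    · rw [show ch c0 (P057RH.col t φ) = t from funext fun v => ch_col t φ v (e ▸ mem_univ v)]; rfl
    · rfl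
  obtain ⟨t, -, h⟩ := col_t (fun _ _ => zero_le_one) A
    (fun φ u => mul_nonneg (hz_nonneg hT.pd _ _ _) (tF_nonneg _ hf _ _)) h1 fun t => by
      have := summable_hz (K := rect A) (Z := fun _ => rc Y t) hT (fun φ => ok_pb hY _ _) c0
        fun φ u => hB (P057RH.col t φ) u
      simpa only [hz_col] using this
  refine ⟨t, h.trans (le_of_eq ?_)⟩
  rw [gt, Lt, Lt, ← tm_one (nu _ _), ← h2]

/-- copies of all vertices -/
def bl (Z : Sys T C Unit) (N : Type) [Fintype N] : Sys T (C × N) N := pb Z Prod.fst fun _ => ()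

theorem at_rc_bl (Z : Sys T C Unit) (χ : Option C → N) (o : Option Unit) (B : Finset C) (a : T.ι) :
    (rc (bl Z N) χ).fam.at' o B a = Z.fam.at' o B a := by
  have : Set.InjOn Prod.fst (B.image (em χ) : Set (C × N)) :=
    injOn_jj (cl := id) (α := fun i => χ (some i)) injective_id.injOn
  rw [at_rc, bl, at_pb _ _ _ this, image_image]
  congr 1
  · cases o <;> rfl
  · exact image_id

theorem hz_bl (Z : Sys T C Unit) (φ : Fc (Option C) N) (u : Vw (Option C) (L0 T C m → ℤ)) :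
    hz (bl Z N) m c0 φ u = nu (S0 T C m (Z.pr id m)) univ (sp φ) u :=
  nu_ext (fun o B _ _ a => at_rc_bl Z _ o B a) u

theorem tF_bl (Z : Sys T C Unit) (f : ℤ → ℝ) (φ : Fc (Option C) N)
    (u : Vw (Option C) (L0 T C m → ℤ)) :
    tF (bl Z N) m f c0 φ u = cel univ c0 (fun _ => F0 Z m f) φ u := by
  refine if_congr Iff.rfl (F_ext (fun a _ => at_rc_bl Z _ _ _ a) ?_ f _) rfl
  change Z.off ((univ.image (em _)).image Prod.fst) () = _
  rw [image_image]
  exact congrArg (Z.off · ()) image_id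

theorem AA_grid : AA (Prod.fst : C × N → C) Prod.snd (id : N → N) = fun _ => univ := by
  funext x
  refine eq_univ_of_forall fun n => ?_
  cases x with
  | none => exact mem_AA'.2 ⟨n, rfl⟩
  | some i => exact mem_AA.2 ⟨(i, n), rfl⟩

theorem sim_grid (Y : Sys T (C × N) N) : Sim Prod.fst Y (pb Y (jj Prod.fst Prod.snd) id) :=
  ⟨fun o A _ a => by
    rw [at_pb (j := jj Prod.fst Prod.snd) _ _ _ injective_id.injOn, Option.map_id]
    exact congrArg (Y.fam.at' o · a) image_id.symm,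
  fun c _ t => congrArg (Y.off · t) image_id.symm⟩

theorem lt_grid (hG : T.G.PosDef) (Y : Sys T (C × N) N) (f : ℤ → ℝ) :
    Lt (fun _ _ => 1) 0 (rect fun _ => univ) (fun φ u => hz Y m c0 φ u * tF Y m f c0 φ u) =
      ∑' x, Y.w Prod.fst m x * Y.PF Prod.fst m f x := by
  rw [← AA_grid]
  exact lt_PF hG injective_id injective_id (sim_grid Y) f

theorem gt_bl (hG : T.G.PosDef) (Z : Sys T C Unit) (f : ℤ → ℝ) :
    gt (nu (S0 T C m (Z.pr id m)) univ) 0 (fun _ => univ) univ c0 (fun _ => F0 Z m f) =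
      ∑' x, (bl Z N).w Prod.fst m x * (bl Z N).PF Prod.fst m f x := by
  rw [← lt_grid (c0 := c0) hG, gt, Lt, Lt, ← tm_one (nu _ _)]
  simp only [hz_bl, tF_bl]

theorem sim_blow {n : ℕ} (Z : Sys T (Fin n) Unit) (p : ℕ) : Sim Prod.fst (Z.blow p) (bl Z (Fin p)) :=
  ⟨fun o A hA a => by rw [at_blow _ _ _ hA, bl, at_pb _ _ _ hA], fun c hc t =>
    congrArg (Z.off · ()) (eq_univ_of_forall fun i => mem_image.2 ((mem_cells.1 hc).2 i)).symm⟩

/-- a homogeneous grid is at least as good -/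
theorem gs_of_grid {n p : ℕ} (hp : 1 ≤ p) (hT : T.Ok s M) {Y : Sys T (Fin n × Fin p) (Fin p)}
    (hY : Y.Ok) {f : ℤ → ℝ} (hf : Unit01 f) (m : ℕ) : ∃ Z : Sys T (Fin n) Unit, Z.Ok ∧
      ∑' x, Y.w Prod.fst m x * Y.PF Prod.fst m f x ≤
        ∑' x, (Z.blow p).w Prod.fst m x * (Z.blow p).PF Prod.fst m f x := by
  obtain ⟨t, h⟩ := col_grid (m := m) hT hY hf ⟨0, hp⟩ fun _ => univ
  rw [lt_grid hT.pd, gt_bl hT.pd] at h
  exact ⟨rc Y t, ok_pb hY _ _, by simpa only [(sim_blow _ p).w, (sim_blow _ p).PF] using h⟩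

theorem fl_res {l l' : LG T C N m} (h1 : l'.fc ⊆ l.fc) (h2 : l'.bs = none ∨ l'.bs = l.bs) :
    fl l' = res (fl l) (sp (fl l')) := by
  funext x
  unfold res
  split_ifs with e
  · obtain ⟨n, hn⟩ := Option.ne_none_iff_exists'.1 (mem_sp.1 e)
    cases x with
    | none => exact h2.resolve_left ((mem_sp (φ := fl l')).1 e)
    | some i => rw [hn, fl_some.2 (h1 (fl_some.1 hn))]
  · exact not_not.1 (mt mem_sp.2 e)

open Classical in
theorem lt_ms (hG : T.G.PosDef) (Y : Sys T (C × N) N) (K : Fc (Option C) N → Prop) :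
    Lt (fun _ _ => 1) 0 K (fun φ u => hz Y m c0 φ u * 1) =
      ms (bk (Gam T Prod.fst N m) fun l => K (fl l)) (Y.pq Prod.fst m (fun l => K (fl l)) 0) := by
  have hK : ∀ l : LG T C N m, l ∈ Set.range (Subtype.val : {l // K (fl l)} → _) ↔ K (fl l) :=
    fun l => by simp
  refine (face_tsum hG Subtype.val_injective hK Y _ (fun _ r => r) fun _ => rfl).trans
    (tsum_congr fun x => ?_)
  rw [tm_cz hG Subtype.val_injective hK]
  simp only [ite_self, prod_const_one, mul_one]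
  congr 2
  funext l
  simp only [Sys.pq, Pi.zero_apply, add_zero]
  congr 1
  funext l'
  split_ifs with e
  · exact congrArg Int.cast (Subtype.val_injective.extend_apply x 0 ⟨l', e⟩)
  · rw [toR_apply, extend_apply' _ _ _ fun n => e ((hK l').1 n)]; simp

/-- the linear forms condition for the model cell -/
theorem lft0 (hC : CUB) (hT : T.Ok s M) {Z : Sys T C Unit} (hZ : Z.Ok) (c0 : N) {d : ℕ}
    (hd : m ≤ d + 1) {n A : ℝ} (hL : T.LFd d n A)
    (hn : (Fintype.card (C × N) + Fintype.card N : ℝ) ≤ n)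
    (hA : (Fintype.card (C × N) + Fintype.card N + 1 : ℝ) * (s + 1) ^ s ≤ Real.exp A) :
    LFt N (nu (S0 T C m (Z.pr id m)) univ) 0 (Real.exp (-A)) := fun K hK => by
  classical
  have : Nonempty N := ⟨c0⟩
  refine ⟨(lk0 hT.pd Z).summable_tm (trs0 hT hZ) (M := 1) fun _ _ => abs_one.le, ?_⟩
  rw [Lt, ← tm_one (nu _ _), ← Lt]
  simp only [← hz_bl (c0 := c0)]
  rw [lt_ms hT.pd]
  exact cub_q hC hT (ok_pb hZ _ _) (fun l l' h h1 h2 _ => fl_res h1 h2 ▸ hK _ h _)
    (fun l l' h h1 h2 => by rwa [fl, h1, h2]) hd hL hn hA 0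

end

end Vale.Agent.P057GH
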