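import Vale.Agent.P057S1.MixE
import Vale.Agent.P057S1.Cpy
import Vale.Agent.P057PC.Blow

/-! Block Gaussians, a mixture that separates sheared blocks, copying. -/

set_option linter.all false

open Matrix Finset Function
open scoped ENNReal
open Vale.Agent.P267.H775 Vale.Agent.P057G Vale.Agent.P057PC Vale.Agent.P057S1

namespace Vale.Agent.P057GH

noncomputable section

variable {I J : Type} [Fintype I] [DecidableEq I] [Fintype J] [DecidableEq J]

theorem qq_bd (M : J → Matrix I I ℝ) (x : I × J → ℝ) :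
    qq (blockDiagonal M) x = ∑ j, qq (M j) fun a => x (a, j) := by
  simp only [qq, dotProduct, mulVec, Fintype.sum_prod_type_right, blockDiagonal_apply, ite_mul,
    zero_mul]
  refine sum_congr rfl fun j _ => sum_congr rfl fun a _ => ?_
  rw [sum_eq_single j (fun k _ h => by simp [h.symm]) (by simp)]
  simp

theorem ng_bd {M : J → Matrix I I ℝ} (hM : ∀ j, (M j).PosDef) (x : I × J → ℝ) :
    ng (blockDiagonal M) x = ∏ j, ng (M j) fun a => x (a, j) := by
  unfold ng gs vol
  rw [qq_bd, det_blockDiagonal, prod_div_distrib, prod_inv_distrib, ← Real.exp_sum, mul_sum,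
    ← sum_neg_distrib]
  simp only [Real.sqrt_eq_rpow]
  rw [Real.finsetProd_rpow _ _ fun j _ => (hM j).det_pos.le]

theorem posDef_of_qq {L : Type} [Fintype L] {G : Matrix L L ℝ} (h : G.IsHermitian)
    (k : ∀ x, x ≠ 0 → 0 < qq G x) : G.PosDef := PosDef.of_dotProduct_mulVec_pos h k

theorem qq_pos {L : Type} [Fintype L] {G : Matrix L L ℝ} (h : G.PosDef) {x : L → ℝ} (k : x ≠ 0) :
    0 < qq G x := h.dotProduct_mulVec_pos k

theorem herm_bd {M : J → Matrix I I ℝ} (hM : ∀ j, (M j).IsHermitian) :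
    (blockDiagonal M).IsHermitian := by
  rw [IsHermitian, blockDiagonal_conjTranspose]
  exact congrArg _ (funext hM)

theorem sum_qq_pos {G : Matrix I I ℝ} (hG : G.PosDef) {x : I × J → ℝ} (k : x ≠ 0) :
    0 < ∑ j, qq G fun a => x (a, j) := by
  obtain ⟨⟨a, j⟩, h⟩ := Function.ne_iff.1 k
  exact sum_pos' (fun _ _ => qq_nonneg hG.posSemidef _)
    ⟨j, mem_univ _, qq_pos hG fun e => h (congrFun e a)⟩

theorem qq_sub_le {G : Matrix I I ℝ} (hG : G.PosDef) (x y : I → ℝ) :
    qq G (x - y) ≤ 3 / 2 * qq G x + 3 * qq G y := by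
  have h := qq_nonneg hG.posSemidef (x + (2 : ℝ) • y)
  have e : bb G x ((2 : ℝ) • y) = 2 * bb G x y := by simp [bb, mulVec_smul]
  rw [qq_add hG.1, qq_smul, e] at h
  rw [qq_sub hG.1]
  linarith

variable (R : J → J → Prop) [DecidableRel R]

/-- subtract the related blocks -/
def sm {α : Type} [AddCommGroup α] (v : J → α) (j : J) : α := v j - ∑ k ∈ univ.filter (R j), v k

/-- add the related blocks -/
def ad {α : Type} [AddCommGroup α] (v : J → α) (j : J) : α := v j + ∑ k ∈ univ.filter (R j), v k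

variable {R}

theorem sm_ad (hR : ∀ j k l, R j k → ¬ R k l) {α : Type} [AddCommGroup α] (v : J → α) :
    sm R (ad R v) = v := funext fun j => by
  have : ∀ k ∈ univ.filter (R j), ad R v k = v k := fun k hk => by
    rw [ad, filter_eq_empty_iff.2 fun l _ => hR j k l (mem_filter.1 hk).2, sum_empty, add_zero]
  rw [sm, sum_congr rfl this, ad, add_sub_cancel_right]

theorem ad_sm (hR : ∀ j k l, R j k → ¬ R k l) {α : Type} [AddCommGroup α] (v : J → α) :
    ad R (sm R v) = v := funext fun j => by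
  have : ∀ k ∈ univ.filter (R j), sm R v k = v k := fun k hk => by
    rw [sm, filter_eq_empty_iff.2 fun l _ => hR j k l (mem_filter.1 hk).2, sum_empty, sub_zero]
  rw [ad, sum_congr rfl this, sm, sub_add_cancel]

/-- the shear as a bijection -/
def shr (hR : ∀ j k l, R j k → ¬ R k l) (α : Type) [AddCommGroup α] : (J → α) ≃ (J → α) :=
  ⟨sm R, ad R, ad_sm hR, sm_ad hR⟩

theorem sm_sub {α : Type} [AddCommGroup α] (v w : J → α) : sm R (v - w) = sm R v - sm R w := by
  funext j
  simp only [sm, Pi.sub_apply, sum_sub_distrib]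
  abel

/-- after one mixture the sheared blocks are independent -/
theorem mix_sm {G : Matrix I I ℝ} (hG : G.PosDef) (top : J → Prop) [DecidablePred top]
    (hR : ∀ j k, R j k → top j ∧ ¬ top k) {β : Type} [Countable β] (P : β → ℝ≥0∞)
    (v : β → J → I → ℝ) (hf : ∑' b, P b * ∏ j, nE G (sm R (v b) j) ≠ ⊤) :
    ∃ c : J → I → ℝ, ∑' b, P b * ∏ j, nE G (sm R (v b) j) ≤ ∑' b, P b *
      ∏ j, nE ((if top j then 2 else 2 + 3 * (Fintype.card J : ℝ) ^ 2) • G) (v b j - c j) := by
  obtain ⟨U, hU⟩ : ∃ U : Matrix (I × J) (I × J) ℝ, U = 1 - Matrix.of fun x y : I × J =>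
    if R x.2 y.2 ∧ x.1 = y.1 then (1 : ℝ) else 0 := ⟨_, rfl⟩
  have h1 : Uni (fun x : I × J => if top x.2 then 1 else 0) U := fun x y h => by
    rw [hU, Matrix.sub_apply, of_apply, if_neg, sub_zero]
    exact fun k => h (by simp [(hR _ _ k.1).1, (hR _ _ k.1).2])
  have h2 : ∀ (x : I × J → ℝ) j, (fun a => (U *ᵥ x) (a, j)) = sm R (fun j a => x (a, j)) j := by
    intro x j
    funext a
    rw [hU, sub_mulVec, one_mulVec]
    simp only [sm, Pi.sub_apply, mulVec, dotProduct, of_apply, Fintype.sum_prod_type_right,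
      Finset.sum_apply, sum_filter, ite_and, ite_mul, one_mul, zero_mul]
    congr 1
    refine sum_congr rfl fun k _ => ?_
    split_ifs <;> simp
  obtain ⟨h, hh⟩ : ∃ h : J → ℝ, ∀ j, h j = if top j then 2 else 2 + 3 * (Fintype.card J : ℝ) ^ 2 :=
    ⟨_, fun _ => rfl⟩
  simp only [← hh]
  have h0 : ∀ j, 0 < h j := fun j => by rw [hh]; split_ifs <;> positivity
  have p0 : ∀ j, (h j • G).PosDef := fun j => hG.smul (h0 j)
  have p1 : (blockDiagonal fun _ : J => G).PosDef := posDef_of_qq (herm_bd fun _ => hG.1)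
    fun x k => by rw [qq_bd]; exact sum_qq_pos hG k
  have p2 := h1.posDef p1
  have p3 : ((blockDiagonal fun j => h j • G) - Uᵀ * (blockDiagonal fun _ : J => G) * U).PosDef := by
    refine posDef_of_qq ((herm_bd fun j => (p0 j).1).sub p2.1) fun x k => ?_
    have e : ∀ A B : Matrix (I × J) (I × J) ℝ, qq (A - B) x = qq A x - qq B x := fun A B => by
      simp [qq, sub_mulVec]
    rw [e, qq_conj, qq_bd, qq_bd]
    simp only [h2, qq_smul_mat]
    obtain ⟨q, hq⟩ : ∃ q : J → ℝ, ∀ j, q j = qq G fun a => x (a, j) := ⟨_, fun _ => rfl⟩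
    have q0 : ∀ j, 0 ≤ q j := fun j => hq j ▸ qq_nonneg hG.posSemidef _
    have b1 : ∀ j, qq G (sm R (fun j a => x (a, j)) j) ≤ 3 / 2 * q j +
        3 * (Fintype.card J * ∑ k, if top k then 0 else q k) := fun j => by
      refine (qq_sub_le hG _ _).trans (add_le_add (by rw [hq]) ?_)
      refine mul_le_mul_of_nonneg_left ((qq_sum_le hG.posSemidef _ _).trans ?_) (by norm_num)
      refine mul_le_mul (by exact_mod_cast card_le_univ _) ?_
        (sum_nonneg fun _ _ => qq_nonneg hG.posSemidef _) (by positivity)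
      rw [sum_filter]
      refine sum_le_sum fun k _ => ?_
      split_ifs with a b b
      exacts [absurd b (hR _ _ a).2, (hq k).ge, le_rfl, q0 k]
    have b2 := sum_le_sum fun j (_ : j ∈ univ) => b1 j
    have b3 : ∑ j, h j * q j = 2 * ∑ j, q j +
        3 * (Fintype.card J : ℝ) ^ 2 * ∑ k, if top k then 0 else q k := by
      rw [mul_sum, mul_sum, ← sum_add_distrib]
      refine sum_congr rfl fun j _ => ?_
      rw [hh]
      split_ifs <;> ring
    have b4 := sum_qq_pos hG k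
    simp only [← hq] at b4 ⊢
    rw [sum_add_distrib, ← mul_sum, sum_const, card_univ, nsmul_eq_mul] at b2
    nlinarith
  have e1 : ∀ b, nE (Uᵀ * (blockDiagonal fun _ : J => G) * U) (fun x => v b x.2 x.1) =
      ∏ j, nE G (sm R (v b) j) := fun b => by
    rw [nE, ng_conj h1.det, ng_bd fun _ => hG, ENNReal.ofReal_prod_of_nonneg fun _ _ => ng_nonneg _ _]
    simp only [h2, nE]
  simp only [← e1] at hf ⊢
  obtain ⟨c, hc⟩ := mix_ex p2 p3 P (fun _ => 0) (fun b x => v b x.2 x.1) hf (by simp) (by simp)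
  refine ⟨fun j a => c (a, j), le_self_add.trans (hc.trans (le_of_eq (tsum_congr fun b => ?_)))⟩
  rw [nE, ng_bd p0, ENNReal.ofReal_prod_of_nonneg fun _ _ => ng_nonneg _ _]
  rfl

theorem ms_smul_le {G : Matrix I I ℝ} (hG : G.PosDef) {a : ℝ} (ha : 1 ≤ a) (c : I → ℝ) :
    ms (a • G) (fun _ => c) ≤ a ^ Fintype.card I * ms G fun _ => 0 := by
  have a0 : 0 < a := by linarith
  have h1 : th (a • G) c ≤ th G 0 := (th_le_th_zero (hG.smul a0) c).trans
    (th_mono hG (hG.smul a0) (fun x => by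
      rw [qq_smul_mat]; exact le_mul_of_one_le_left (qq_nonneg hG.posSemidef x) ha) 0)
  have h2 : √a ^ Fintype.card I ≤ a ^ Fintype.card I :=
    pow_le_pow_left₀ (Real.sqrt_nonneg a) (Real.sqrt_le_iff.2 ⟨a0.le, by nlinarith⟩) _
  have h3 := vol_pos hG
  unfold ms ng
  rw [tsum_div_const, tsum_div_const, vol_smul a0, inv_pow, ← div_eq_inv_mul, div_div_eq_mul_div,
    mul_comm, mul_div_assoc]
  exact mul_le_mul h2 (div_le_div_of_nonneg_right h1 h3.le)
    (div_nonneg (th_nonneg _ c) h3.le) (by positivity)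

/-- copying without an upper bound -/
theorem cpy2 {β : Type} (w u N B : β → ℝ≥0∞) (hu : ∀ x, u x ≤ 1) {a κ θ : ℝ≥0∞} (ha : a ≤ 1)
    (a0 : a ≠ 0) (h0 : ∑' x, w x ≤ 1 + a ^ 2) (h1 : 1 ≤ ∑' x, w x * N x + a ^ 2)
    (h2 : ∑' x, w x * N x ^ 2 ≤ 1 + a ^ 2)
    (h : κ + κ + θ * ∑' x, w x * u x * N x ≤ ∑' x, w x * u x * B x) (hε : θ * (3 * a) ≤ κ)
    (k0 : κ ≠ 0) (kt : κ ≠ ⊤) (p : ℕ) : θ ^ p * κ ≤ ∑' x, w x * B x ^ (p + 1) := by
  have hU := wt_le w u N hu ha a0 h0 h1 h2
  have H := holE_mom (fun x => w x * u x) B (n := 1) (n' := p + 1) (by omega) (by omega)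
  have hS : ∑' x, w x * u x * B x ^ (p + 1) ≤ ∑' x, w x * B x ^ (p + 1) :=
    ENNReal.tsum_le_tsum fun x => mul_le_mul_left (mul_le_of_le_one_right' (hu x)) _
  have Ut : ∑' x, w x * u x ≠ ⊤ := ne_top_of_le_ne_top (b := 1 + 1) (by simp)
    ((ENNReal.tsum_le_tsum fun x => mul_le_of_le_one_right' (hu x)).trans
      (h0.trans (add_le_add le_rfl (pow_le_one' ha 2))))
  have U0 : ∑' x, w x * u x ≠ 0 := fun e => k0 (by
    have : ∑' x, w x * u x * B x = 0 := by simp [ENNReal.tsum_eq_zero.1 e]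
    rw [this] at h
    exact le_antisymm (le_self_add.trans (le_self_add.trans h)) bot_le)
  simp only [pow_one, Nat.add_sub_cancel] at H
  generalize ∑' x, w x * u x = U at hU H Ut U0
  generalize ∑' x, w x * u x * N x = UN at hU h
  generalize ∑' x, w x * u x * B x = UB at H h
  have e1 : κ + θ * U ≤ UB := by
    refine le_trans ?_ h
    calc κ + θ * U ≤ κ + θ * (UN + 3 * a) := by gcongr
      _ = κ + θ * (3 * a) + θ * UN := by ring
      _ ≤ _ := by gcongr
  refine (ENNReal.mul_le_mul_iff_left (pow_ne_zero p U0) (ENNReal.pow_ne_top Ut)).1 ?_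
  calc θ ^ p * κ * U ^ p = (θ * U) ^ p * κ := by ring
    _ ≤ UB ^ p * UB := mul_le_mul' (pow_le_pow_left' (le_add_self.trans e1) p) (le_self_add.trans e1)
    _ ≤ _ := by rw [← pow_succ]; exact H.trans (by gcongr)

end

end Vale.Agent.P057GH
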