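import Vale.Agent.P057GH.Drop

/-! Removing the top level of labels below the cells, the inequality. -/

set_option linter.all false

open Matrix Finset Function
open scoped ENNReal
open Vale.Agent.P267.H775 Vale.Agent.P057G Vale.Agent.P057PC Vale.Agent.P057TP Vale.Agent.P057ST
open Vale.Agent.P057S1

namespace Vale.Agent.P057GH

noncomputable section

variable {C W S : Type} {T : Tow} {m s : ℕ} {M : ℝ} [Fintype W] [DecidableEq W] [Fintype S]
  {cl : W → C}

open Classical in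
theorem prod_JF {R : Type} [CommMonoid R] (g : Finset W → S → R) :
    ∏ c ∈ cells cl, ∏ t, g c t = ∏ j : JF cl S, if j.A ∈ cells cl then g j.A j.t else 1 := by
  rw [← prod_product', ← prod_filter]
  refine (prod_bij (fun j _ => (j.A, j.t)) (fun j hj => mem_product.2 ⟨(mem_filter.1 hj).2, mem_univ _⟩)
    (fun _ _ _ _ e => JF.ext (congrArg Prod.fst e) (congrArg Prod.snd e)) (fun x hx => ?_) fun _ _ => rfl).symm
  have := (mem_product.1 hx).1
  exact ⟨⟨x.1, x.2, (mem_cells.1 this).1⟩, mem_filter.2 ⟨mem_univ _, this⟩, rfl⟩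

theorem FU_congr (Z : Sys T W S) (G : Matrix {a // m ≤ T.lv a} {a // m ≤ T.lv a} ℝ) (f : ℤ → ℝ)
    (c : Finset W) (t : S) {b b' : T.ι → ℤ} (h : ∀ a, T.lv a < m → b a = b' a) :
    FU Z m G f c t b = FU Z m G f c t b' := by
  have : ∀ y, gl m b y = gl m b' y := fun y => funext fun a => by
    unfold gl
    split_ifs with k
    exacts [rfl, h a (not_le.1 k)]
  simp only [FU, this]

theorem FU_nonneg (Z : Sys T W S) (G : Matrix {a // m ≤ T.lv a} {a // m ≤ T.lv a} ℝ) {f : ℤ → ℝ}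
    (hf : Unit01 f) (c : Finset W) (t : S) (b : T.ι → ℤ) : 0 ≤ FU Z m G f c t b :=
  er_nonneg _ _ fun _ => (hf _).1

variable {e : Lb T cl S m ⊕ ({a // T.lv a = m} × JF cl S) ≃ Lb T cl S (m + 1)}
  (e1 : ∀ l, e (.inl l) = inc l) (e2 : ∀ a j, (e (.inr (a, j))).cd = a.1 ∧
    (e (.inr (a, j))).fc = j.A ∧ (e (.inr (a, j))).bs = some j.t)
include e1 e2

theorem pt_top (z : Lb T cl S (m + 1) → ℤ) (j : JF cl S) (hj : j.A ∈ cells cl)
    (a : {a // T.lv a = m}) :
    pt z (some j.t) j.A a = ad RR (fun k => z (e (.inr (a, k)))) j := by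
  classical
  rw [pt, ← e.sum_comp, Fintype.sum_sum_type, Fintype.sum_eq_zero, zero_add,
    Fintype.sum_prod_type, Fintype.sum_eq_single a, ad,
    ← add_sum_erase _ _ (mem_univ j), if_pos ⟨(e2 a j).1, (e2 a j).2.1.subset, .inr (e2 a j).2.2⟩,
    sum_filter, ← add_sum_erase _ _ (mem_univ j), if_neg fun n : RR j j => n.2.1 rfl, zero_add]
  · refine congrArg _ (sum_congr rfl fun k hk => @if_congr _ _ _ (_) (_) _ _ _ _ ?_ rfl rfl)
    have := (mem_erase.1 hk).1
    simp only [(e2 a k).1, (e2 a k).2.1, (e2 a k).2.2, RR, hj,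
      true_and, and_true, reduceCtorEq, false_or, Option.some.injEq]
    tauto
  · exact fun b hb => sum_eq_zero fun k _ =>
      if_neg fun n => hb (Subtype.ext ((e2 b k).1.symm.trans n.1))
  · refine fun l => if_neg fun k => ?_
    rw [e1] at k
    exact absurd ((congrArg T.lv k.1).trans a.2) l.2.1.ne

theorem w_split (hT : T.Ok s M) {Z : Sys T W S} (h : Z.Ok) (z : Lb T cl S (m + 1) → ℤ) :
    Z.w cl (m + 1) z = Z.w cl m (z ∘ inc) * ∏ j : JF cl S, ng (bk T.G fun a => T.lv a = m) fun a =>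
      z (e (.inr (a, j))) - Z.fam.alt (pt (toR (z ∘ inc))) (some j.t) j.A a.1 := by
  have hG : (Gam T cl S (m + 1)).submatrix e e = fromBlocks (Gam T cl S m) 0 0
      (blockDiagonal fun _ : JF cl S => bk T.G fun a => T.lv a = m) := by
    ext (a | ⟨a, j⟩) (b | ⟨b, k⟩) <;>
      simp only [Gam, submatrix_apply, of_apply, fromBlocks_apply₁₁, fromBlocks_apply₁₂,
        fromBlocks_apply₂₁, fromBlocks_apply₂₂, Matrix.zero_apply, e1, e2]
    · rfl
    · rw [hT.blk (inc a).cd _ (a.2.1.trans_eq b.2.symm).ne, ite_self]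
    · rw [hT.blk _ (inc b).cd (b.2.1.trans_eq a.2.symm).ne', ite_self]
    · rw [blockDiagonal_apply]
      refine @if_congr _ _ _ (_) (_) _ _ _ _ ?_ rfl rfl
      rw [(e2 a j).2.1, (e2 a j).2.2, (e2 b k).2.1, (e2 b k).2.2]
      exact ⟨fun n => JF.ext n.1 (Option.some.inj n.2), fun n => (show j = k from n) ▸ ⟨rfl, rfl⟩⟩
  rw [Sys.w, ng_sum e (pd_Gam hT.pd _ _ _) hG, ng_bd fun _ => posDef_bk hT.pd _]
  congr 1
  · rw [Sys.w]
    congr 1
    funext l
    simp only [Sys.ps, Pi.sub_apply, e1, pr_inc hT h]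
    rfl
  · refine prod_congr rfl fun j _ => congrArg _ (funext fun a => ?_)
    simp only [Sys.ps, Pi.sub_apply, pr_inc hT h, e2]
    rfl

omit e1 e2 in
open Classical in
/-- the labels of level `m` on the faces below the cells are removed -/
theorem drop [Fintype C] (hm : Fintype.card C < m) (hT : T.Ok s M) {Z : Sys T W S} (h : Z.Ok)
    {f : ℤ → ℝ} (hf : Unit01 f) {K : ℝ} (hK : ∀ c, ms ((2 + 3 * (Fintype.card (JF cl S) : ℝ) ^ 2) •
      bk T.G fun a => T.lv a = m) (fun _ => c) ≤ K) : ∃ γ : JF cl S → {a // T.lv a = m} → ℝ,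
      ∑' z, Z.w cl (m + 1) z * Z.PF cl (m + 1) f z ≤
        K ^ (univ.filter fun j : JF cl S => j.A ∉ cells cl).card * ∑' z, Z.w cl m z *
          ∏ c ∈ cells cl, ∏ t, FU (adc Z (cx m γ)) m (bk (G2 T m) fun a => m ≤ T.lv a) f c t
            (pt z (some t) c) := by
  obtain ⟨e, e1, e2⟩ := exists_E1 T cl S hm
  have hR : ∀ j k l : JF cl S, RR j k → ¬ RR k l := fun j k l a b => (RR_top j k a).2 b.1
  have K0 : 0 ≤ K := (ms_nonneg _ _).trans (hK 0)
  obtain ⟨π, hπ⟩ : ∃ π : (Lb T cl S m → ℤ) → JF cl S → {a // T.lv a = m} → ℝ, ∀ x j a,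
    π x j a = Z.fam.alt (pt (toR x)) (some j.t) j.A a.1 := ⟨_, fun _ _ _ => rfl⟩
  obtain ⟨Φ, hΦ⟩ : ∃ Φ : (Lb T cl S m → ℤ) → JF cl S → ({a // T.lv a = m} → ℤ) → ℝ≥0∞, ∀ x j y,
    Φ x j y = if j.A ∈ cells cl then ENNReal.ofReal (FU Z (m + 1) (bk T.G fun a => m + 1 ≤ T.lv a)
      f j.A j.t (gi m (pt x (some j.t) j.A) y)) else 1 := ⟨_, fun _ _ _ => rfl⟩
  obtain ⟨B, hB⟩ := PF_bdd hT h cl (m + 1) hf
  have a1 : ENNReal.ofReal (∑' z, Z.w cl (m + 1) z * Z.PF cl (m + 1) f z) =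
      ∑' b : (Lb T cl S m → ℤ) × (JF cl S → {a // T.lv a = m} → ℤ),
        (ENNReal.ofReal (Z.w cl m b.1) * ∏ j, Φ b.1 j (b.2 j)) * ∏ j, nE (bk T.G fun a => T.lv a = m)
          (sm RR (fun j => toR (b.2 j) - ad RR (π b.1) j) j) := by
    rw [ENNReal.ofReal_tsum_of_nonneg (fun z => mul_nonneg (w_nonneg Z z) (PF_nonneg Z hf z))
      (summable_mul_real (summable_w hT h) (w_nonneg Z) hB), tsum_split e, ENNReal.tsum_prod']
    refine tsum_congr fun x => ?_
    rw [← ((shr hR _).trans ((Equiv.piComm _).trans (Equiv.curry _ _ _).symm)).tsum_eq]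
    refine tsum_congr fun Y => ?_
    obtain ⟨z, hz⟩ : ∃ z, z = Sum.elim x (((shr hR _).trans ((Equiv.piComm _).trans
      (Equiv.curry _ _ _).symm)) Y) ∘ e.symm := ⟨_, rfl⟩
    have z1 : z ∘ inc = x := funext fun l => by
      rw [Function.comp_apply, ← e1, hz, Function.comp_apply, e.symm_apply_apply]; rfl
    have z2 : ∀ a j, z (e (.inr (a, j))) = sm RR Y j a := fun a j => by
      rw [hz, Function.comp_apply, e.symm_apply_apply]; rfl
    rw [← hz, w_split e1 e2 hT h, z1, ENNReal.ofReal_mul (mul_nonneg (w_nonneg _ _)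
      (prod_nonneg fun _ _ => ng_nonneg _ _)), ENNReal.ofReal_mul (w_nonneg _ _), mul_right_comm,
      ENNReal.ofReal_prod_of_nonneg fun _ _ => ng_nonneg _ _, Sys.PF, prod_JF,
      ENNReal.ofReal_prod_of_nonneg fun j _ => by
        split_ifs; exacts [F_nonneg Z hf _ _ _, zero_le_one]]
    congr 2
    · refine prod_congr rfl fun j _ => ?_
      rw [hΦ]
      split_ifs with k
      · refine congrArg _ (FU_congr Z _ f _ _ fun a ha => ?_)
        unfold gi
        split_ifs with n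
        · refine ((pt_top e1 e2 z j k ⟨a, n⟩).trans ?_).trans
            (congrFun (congrFun (ad_sm hR Y) j) ⟨a, n⟩)
          simp only [z2, ad, Pi.add_apply, Finset.sum_apply]
        · rw [← z1, pt_inc _ _ _ (by omega)]
      · exact ENNReal.ofReal_one
    · funext j
      refine congrArg (fun v => ENNReal.ofReal (ng _ v)) ?_
      rw [show (fun j => toR (Y j) - ad RR (π x) j) = (fun j => toR (Y j)) - ad RR (π x) from rfl,
        sm_sub, sm_ad hR]
      funext a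
      simp only [z2, hπ, sm, Pi.sub_apply, Finset.sum_apply, toR_apply]
      push_cast
      rfl
  obtain ⟨γ, hγ⟩ := mix_sm (posDef_bk hT.pd fun a => T.lv a = m) (fun j => j.A ∈ cells cl) RR_top
    _ _ (a1 ▸ ENNReal.ofReal_ne_top)
  have hZ := ok_cx hm h γ
  obtain ⟨B', hB'⟩ := ms_bdd (posDef_bk (pd_scl hT m) fun a => m ≤ T.lv a)
  have p0 : ∀ z : Lb T cl S m → ℤ, 0 ≤ ∏ c ∈ cells cl, ∏ t, FU (adc Z (cx m γ)) m
      (bk (G2 T m) fun a => m ≤ T.lv a) f c t (pt z (some t) c) :=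
    fun z => prod_nonneg fun _ _ => prod_nonneg fun _ _ => FU_nonneg _ _ hf _ _ _
  have s2 := summable_mul_real (summable_w (cl := cl) (m := m) hT h) (w_nonneg Z)
    (C := ∏ c ∈ cells cl, ∏ t : S, B') fun z => (abs_of_nonneg (p0 z)).trans_le
      (prod_le_prod (fun _ _ => prod_nonneg fun _ _ => FU_nonneg _ _ hf _ _ _) fun c _ =>
        prod_le_prod (fun _ _ => FU_nonneg _ _ hf _ _ _) fun t _ =>
          (er_le (tri_gl hT hZ c t _) (posDef_bk (pd_scl hT m) _) fun _ => abs01 hf _).trans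
            ((one_mul _).trans_le (hB' _ _ (tri_gl hT hZ c t _))))
  refine ⟨γ, (ENNReal.ofReal_le_ofReal_iff (mul_nonneg (pow_nonneg K0 _)
    (tsum_nonneg fun z => mul_nonneg (w_nonneg Z z) (p0 z)))).1 (a1.trans_le (hγ.trans ?_))⟩
  rw [ENNReal.ofReal_mul (pow_nonneg K0 _), ENNReal.ofReal_tsum_of_nonneg
    (fun z => mul_nonneg (w_nonneg Z z) (p0 z)) s2, ← ENNReal.tsum_mul_left, ENNReal.tsum_prod']
  refine ENNReal.tsum_le_tsum fun x => ?_
  simp only [mul_assoc, ← prod_mul_distrib]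
  rw [ENNReal.tsum_mul_left, tsum_pi fun j y => Φ x j y * nE (_ • bk T.G fun a => T.lv a = m)
    (toR y - ad RR (π x) j - γ j), ENNReal.ofReal_mul (w_nonneg Z x), mul_left_comm, prod_JF,
    ENNReal.ofReal_prod_of_nonneg fun j _ => by
      split_ifs; exacts [FU_nonneg _ _ hf _ _ _, zero_le_one], ENNReal.ofReal_pow K0, ← prod_const,
    prod_filter, ← prod_mul_distrib]
  refine mul_le_mul_right (prod_le_prod' fun j _ => ?_) _
  by_cases k : j.A ∈ cells cl
  · simp only [hΦ, k, if_true, not_true, if_false, one_mul]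
    rw [FU_split hT h hZ hf (γ := γ j) (fun a => by rw [at_adc, evA_cx γ j k])
      (fun a ha => by rw [at_adc, cx_ne _ _ (by omega), map_zero, map_zero, add_zero]) rfl]
    refine le_of_eq (tsum_congr fun y => ?_)
    rw [mul_comm]
    congr 4
    funext a
    rw [show π x = fun j : JF cl S => fun a : {a // T.lv a = m} =>
      Z.fam.alt (pt (toR x)) (some j.t) j.A a.1 from funext fun _ => funext (hπ x _),
      ad_cell (fun A t (a : {a // T.lv a = m}) => Z.fam.alt (pt (toR x)) (some t) A a.1) j k,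
      Finset.sum_apply]
    refine (sum_powerset_dlt (fun B => MvPolynomial.eval (pt (toR x) (some j.t) B)
      (Z.fam.at' (some j.t) B a.1)) _).trans ?_
    rw [← funext (toR_pt x _ _)]
    rfl
  · simp only [hΦ, k, if_false, not_false_iff, if_true, one_mul, ENNReal.ofReal_one, mul_one, sub_sub]
    refine le_trans (le_of_eq ?_) (ENNReal.ofReal_le_ofReal (hK (ad RR (π x) j + γ j)))
    rw [ms, ENNReal.ofReal_tsum_of_nonneg (fun _ => ng_nonneg _ _) (summable_ng (lv := fun _ => 0)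
      (fun _ _ _ _ => rfl) ((posDef_bk hT.pd _).smul (by positivity)))]
    rfl

/-- the same data on the tower with the level `m` narrowed -/
def onS (Z : Sys T W S) (m : ℕ) : Sys (T.scl m) W S := ⟨Z.fam, Z.off⟩

omit e1 e2 in
theorem ok_onS {Z : Sys T W S} (h : Z.Ok) (m : ℕ) : (onS Z m).Ok := ⟨h.fam, h.top⟩

omit e1 e2 in
theorem Gam_scl : Gam (T.scl m) cl S m = Gam T cl S m := by
  ext l l'
  exact @if_congr _ _ _ (_) (_) _ _ _ _ Iff.rfl (if_neg l.2.1.ne) rfl

omit e1 e2 in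
theorem w_onS (Z : Sys T W S) (z : Lb T cl S m → ℤ) : (onS Z m).w cl m z = Z.w cl m z := by
  unfold Sys.w
  rw [Gam_scl]
  rfl

omit e1 e2 in
theorem F_onS (Z : Sys T W S) (f : ℤ → ℝ) (z : Lb T cl S m → ℤ) (c : Finset W) (t : S) :
    (onS Z m).F cl m f z c t =
      FU Z m (bk (G2 T m) fun a => m ≤ T.lv a) f c t (pt z (some t) c) := rfl

omit e1 e2 in
open Classical in
theorem drop' [Fintype C] (hm : Fintype.card C < m) (hT : T.Ok s M) {Z : Sys T W S} (h : Z.Ok)
    {f : ℤ → ℝ} (hf : Unit01 f) {K : ℝ} (hK : ∀ c, ms ((2 + 3 * (Fintype.card (JF cl S) : ℝ) ^ 2) •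
      bk T.G fun a => T.lv a = m) (fun _ => c) ≤ K) : ∃ Z' : Sys (T.scl m) W S, Z'.Ok ∧
      ∑' z, Z.w cl (m + 1) z * Z.PF cl (m + 1) f z ≤
        K ^ (univ.filter fun j : JF cl S => j.A ∉ cells cl).card *
          ∑' z, Z'.w cl m z * Z'.PF cl m f z := by
  obtain ⟨γ, hγ⟩ := drop hm hT h hf hK
  refine ⟨onS (adc Z (cx m γ)) m, ok_onS (ok_cx hm h γ) m, hγ.trans (le_of_eq ?_)⟩
  refine congrArg _ (tsum_congr fun z => congrArg₂ (· * ·) ?_ rfl)
  rw [w_onS, Sys.w, Sys.w, Sys.ps, Sys.ps]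
  congr 2
  funext l
  exact pr_ext (fun B _ => by
    rw [at_adc, cx_ne (a := l.cd) _ _ l.2.1.ne, map_zero, map_zero, add_zero]) _

end

end Vale.Agent.P057GH
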