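import Vale.Agent.P057GH.Cpy
import Vale.Agent.P057GH.Drop2
import Vale.Agent.P057DW.Scl

/-! From the state before the copies to a homogeneous grid. -/

set_option linter.all false

open Matrix Finset Function
open Vale.Agent.P267.H775 Vale.Agent.P057G Vale.Agent.P057PC Vale.Agent.P057TP Vale.Agent.P057ST
open Vale.Agent.P057MA Vale.Agent.P057RH

namespace Vale.Agent.P057GH

noncomputable section

variable {C N W S : Type} [Fintype C] [DecidableEq C] [Fintype N] [DecidableEq N] [Fintype W]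
  [DecidableEq W] [Fintype S] {cl : W → C} {α : W → N} {k : S → N}

theorem card_AA (hj : Injective (jj cl α)) (hk : Injective k) (c0 : N) :
    (P057RH.cells (AA cl α k) univ c0).card = (P057TP.cells cl).card * Fintype.card S := by
  classical
  have h := prod_cells (c0 := c0) hj hk (R := ℕ) fun _ _ => 2
  simp only [← ite_and] at h
  rw [← prod_filter, prod_const, prod_const, prod_const, card_univ, ← pow_mul] at h
  rw [mul_comm, ← Nat.pow_right_injective le_rfl h]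
  refine card_bij (fun χ _ x => some (χ x)) (fun χ hχ => mem_filter.2 ⟨mem_univ _, fun x l e => ?_,
    eq_univ_of_forall fun x => mem_sp.2 (Option.some_ne_none _)⟩)
    (fun _ _ _ _ e => funext fun x => Option.some.inj (congrFun e x)) fun φ hφ => ?_
  · simpa [← Option.some.inj e] using Fintype.mem_piFinset.1 hχ x
  · obtain ⟨h1, h2⟩ := (mem_filter.1 hφ).2
    exact ⟨ch c0 φ, Fintype.mem_piFinset.2 fun x => by simpa using h1 x _ (full_eq h2 x),
      funext fun x => (full_eq h2 x).symm⟩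

theorem cells_le : (P057TP.cells cl).card ≤ Fintype.card W ^ Fintype.card C := by
  rw [← Fintype.card_fun, ← card_univ]
  refine le_trans (card_le_card fun c hc => ?_) (card_image_le (f := fun v : C → W => univ.image v))
  obtain ⟨h1, h2⟩ := mem_cells.1 hc
  choose v hv1 hv2 using h2
  refine mem_image.2 ⟨v, mem_univ _, Finset.ext fun w => ?_⟩
  simp only [mem_image, mem_univ, true_and]
  exact ⟨fun ⟨i, h⟩ => h ▸ hv1 i, fun h => ⟨cl w, h1 (hv1 _) h (hv2 _)⟩⟩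

theorem card_JF : Fintype.card (JF (Prod.fst : C × N → C) N) ≤
    (Fintype.card N + 1) ^ Fintype.card C * Fintype.card N := by
  rw [← Fintype.card_option, ← Fintype.card_fun, ← Fintype.card_prod]
  refine Fintype.card_le_of_injective (fun j => (fun i => fo j.A none (some i), j.t))
    fun j j' e => JF.ext (Finset.ext fun w => ?_) (congrArg Prod.snd e)
  rw [← fo_some j.h none, ← fo_some j'.h none, show fo j.A none (some w.1) = fo j'.A none (some w.1)
    from congrFun (congrArg Prod.fst e) w.1]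

theorem pow_le3 (p n : ℕ) (hp : 1 ≤ p) : (p + 1) ^ n * p ≤ p ^ n * p + 3 ^ n * p ^ n := by
  induction n with
  | zero => simp
  | succ n ih =>
    have h1 : 1 ≤ 3 ^ n := Nat.one_le_pow _ _ (by norm_num)
    simp only [pow_succ]
    nlinarith [Nat.mul_le_mul_right (p + 1) ih, Nat.mul_le_mul_left (3 ^ n * p ^ n) hp,
      Nat.mul_le_mul_left (p ^ n * p) h1]

open Classical in
theorem card_small (hp : 1 ≤ Fintype.card N) : (univ.filter fun j : JF (Prod.fst : C × N → C) N =>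
    j.A ∉ P057TP.cells Prod.fst).card ≤ 3 ^ Fintype.card C * Fintype.card N ^ Fintype.card C := by
  have h := prod_JF (cl := (Prod.fst : C × N → C)) (S := N) (R := ℕ) fun _ _ => 2
  rw [← prod_filter, prod_const, prod_const, prod_const, card_univ, ← pow_mul, card_cells] at h
  have h1 := card_filter_add_card_filter_not (s := univ)
    fun j : JF (Prod.fst : C × N → C) N => j.A ∈ P057TP.cells Prod.fst
  rw [← Nat.pow_right_injective le_rfl h, card_univ, mul_comm] at h1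
  have := card_JF.trans (pow_le3 _ (Fintype.card C) hp)
  omega

theorem numB {ε θ X : ℝ} {k q n : ℕ} (e1 : ε ≤ 1) (t0 : 0 < θ) (t4 : θ ≤ 4) (hk : k ≠ 0)
    (hX : 0 ≤ X) (hq : X + 2 * n + 3 ≤ ε / 2 * (q + 1 : ℕ)) :
    (1 + 2) ^ n * 1 * ((1 - ε / 2) * θ) ^ (k * (q + 1)) < (θ ^ k) ^ q * (Real.exp (-X) / 4) := by
  have h1 : (1 - ε / 2) ^ (q + 1) ≤ Real.exp (-X) * (Real.exp (-2)) ^ n * Real.exp (-3) := by
    refine (pow_le_pow_left₀ (by linarith) (Real.one_sub_le_exp_neg _) _).trans ?_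
    rw [← Real.exp_nat_mul, ← Real.exp_nat_mul, ← Real.exp_add, ← Real.exp_add, Real.exp_le_exp]
    linarith
  have h2 : Real.exp (-3) < 1 / 16 := by
    rw [Real.exp_neg, ← one_div]
    refine one_div_lt_one_div_of_lt (by norm_num) ?_
    rw [show (3 : ℝ) = (3 : ℕ) * 1 by simp, Real.exp_nat_mul]
    exact lt_of_lt_of_le (by norm_num) (pow_le_pow_left₀ (by norm_num) Real.exp_one_gt_d9.le 3)
  have h3 : (1 + 2) ^ n * Real.exp (-2) ^ n ≤ 1 := by
    rw [← mul_pow]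
    refine pow_le_one₀ (by positivity) ?_
    rw [Real.exp_neg, ← div_eq_mul_inv, div_le_one (Real.exp_pos _)]
    linarith [Real.add_one_le_exp 2]
  have h4 : Real.exp (-X) ≤ 1 := Real.exp_le_one_iff.2 (by linarith)
  have h5 : 0 ≤ (1 - ε / 2) ^ (q + 1) := pow_nonneg (by linarith) _
  have h6 : (1 + 2 : ℝ) ^ n * (1 - ε / 2) ^ (q + 1) < Real.exp (-X) / 16 := by
    calc _ ≤ (1 + 2) ^ n * _ := mul_le_mul_of_nonneg_left h1 (by positivity)
      _ = Real.exp (-X) * Real.exp (-3) * ((1 + 2) ^ n * Real.exp (-2) ^ n) := by ac_rfl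
      _ ≤ _ := mul_le_of_le_one_right (by positivity) h3
      _ < _ := by linarith [mul_lt_mul_of_pos_left h2 (Real.exp_pos (-X))]
  have h7 : (1 : ℝ) ≤ (1 + 2) ^ n := one_le_pow₀ (by norm_num)
  have h8 : ((1 - ε / 2) ^ (q + 1) * θ) ^ k ≤ (1 - ε / 2) ^ (q + 1) * θ :=
    pow_le_of_le_one (by positivity) (by
      linarith [mul_le_mul_of_nonneg_right h7 h5, mul_le_mul_of_nonneg_left t4 h5]) hk
  have e : ((1 - ε / 2) * θ) ^ (k * (q + 1)) = (θ ^ k) ^ q * ((1 - ε / 2) ^ (q + 1) * θ) ^ k := by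
    simp only [mul_pow, ← pow_mul]; ring
  rw [e, mul_one, mul_left_comm]
  refine mul_lt_mul_of_pos_left ?_ (by positivity)
  linarith [mul_le_mul_of_nonneg_left h8 (zero_le_one.trans h7),
    mul_le_mul_of_nonneg_left t4 (mul_nonneg (zero_le_one.trans h7) h5)]

theorem numC {ε θ L G : ℝ} {j r : ℕ} (e0 : 0 ≤ ε) (e1 : ε ≤ 1) (t0 : 0 ≤ θ)
    (h : ((1 - ε / 2) * θ) ^ r ≤ Real.exp L ^ j * G) (hj : j * L ≤ r * (ε / 2)) :
    ((1 - ε) * θ) ^ r ≤ G := by
  have h1 : (1 - ε) * θ ≤ Real.exp (-(ε / 2)) * ((1 - ε / 2) * θ) := by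
    rw [← mul_assoc]
    refine mul_le_mul_of_nonneg_right ?_ t0
    nlinarith [Real.one_sub_le_exp_neg (ε / 2)]
  have h2 : 0 ≤ (1 - ε / 2) * θ := mul_nonneg (by linarith) t0
  have h3 : 0 ≤ G := nonneg_of_mul_nonneg_right ((pow_nonneg h2 r).trans h) (by positivity)
  refine (pow_le_pow_left₀ (mul_nonneg (by linarith) t0) h1 r).trans ?_
  rw [mul_pow]
  refine (mul_le_mul_of_nonneg_left h (by positivity)).trans ?_
  rw [← mul_assoc, ← Real.exp_nat_mul, ← Real.exp_nat_mul, ← Real.exp_add]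
  exact mul_le_of_le_one_left h3 (Real.exp_le_one_iff.2 (by linarith))

theorem cd_core (hC : CUB) {s n q : ℕ} {M : ℝ} {T : Tow} {cl : W → Fin n} {Z : Sys T W Unit}
    {f : ℤ → ℝ} {ε θ B κ σ X p A A' L : ℝ} (hT : T.Ok s M) (hZ : Z.Ok) (hf : Unit01 f) (e0 : 0 < ε)
    (e1 : ε ≤ 1) (t0 : 0 < θ) (t4 : θ ≤ 4) (hc : (P057TP.cells cl).Nonempty)
    (hp : p = (q + 1 + 1 : ℕ)) (hW : (Fintype.card W : ℝ) ≤ p) (hκ : Real.exp (-X) ≤ κ) (hσ : 0 < σ)
    (h : Z.SP cl (n + 2) f θ B κ σ) (hL : T.LFd (n + 1) A' A) (a1 : (n + 1) * p ≤ A')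
    (a2 : ((n + 1) * p + 1) * (s + 1) ^ s ≤ Real.exp A) (a3 : 4 ≤ A) (hX : 0 ≤ X) (L0 : 0 ≤ L)
    (a4 : θ ^ (P057TP.cells cl).card * (3 * Real.exp (-(A / 2))) ≤ Real.exp (-X) / 4)
    (a5 : X + 2 * (n + 1) + 3 ≤ ε / 2 * p) (a6 : 3 ^ n * L ≤ p * (ε / 2))
    (a7 : ∀ J : ℝ, 0 ≤ J → J ≤ (p + 1) ^ n * p → (2 + 3 * J ^ 2) ^ Fintype.card {a // T.lv a = n + 1} *
      ms (bk T.G fun a => T.lv a = n + 1) (fun _ => 0) ≤ Real.exp L) :
    GS (T.scl (n + 1)) n f (q + 1 + 1) ((1 - ε) * θ) := by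
  have b1 : (Fintype.card (Fin n × Fin (q + 1 + 1)) + Fintype.card (Fin (q + 1 + 1)) : ℝ) =
      (n + 1) * p := by simp only [Fintype.card_prod, Fintype.card_fin, Nat.cast_mul, ← hp]; ring
  rw [← b1] at a1 a2
  obtain ⟨α⟩ : Nonempty (W ↪ Fin (q + 1 + 1)) := Embedding.nonempty_of_card_le (by
    rw [Fintype.card_fin]
    exact_mod_cast hW.trans_eq hp)
  have hj : Injective (jj cl α) := fun _ _ e => α.injective (congrArg Prod.snd e)
  have A0 := cpy_sp (c0 := 0) (c1 := 1) hC hT hZ α.injective zero_ne_one hf t0.le hσ h le_rfl hL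
    a1 a2 (Real.exp_pos _) (exp_small (by norm_num) (by linarith))
    (by rw [← Real.exp_nat_mul]; push_cast; ring_nf; rfl)
    (by positivity) (by linarith) a4 (Fintype.card_fin _)
  obtain ⟨t, A1⟩ := col_grid (m := n + 2) hT (ok_psh (cl := cl) (α := α) hZ) hf 0 (AA cl α id)
  have hZ0 : (rc (psh Z cl α) t).Ok := ok_pb (ok_psh hZ) _ _
  generalize rc (psh Z cl α) t = Z0 at A1 hZ0
  obtain ⟨B0, hB0⟩ := F_bdd hT hZ0 id (n + 2) hf
  have A2 := fun k => mono_t (nu_nonneg (S := S0 T _ _ _) (pd_Gam hT.pd _ _ _) univ)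
    (lft0 hC hT hZ0 0 le_rfl hL a1 a2) (δ' := 2) (A' := fun _ => univ) (S := univ)
    ((Real.exp_le_one_iff.2 (by linarith)).trans_lt one_lt_two) 0 (f := F0 Z0 (n + 2) f)
    (fun u => ⟨F_nonneg _ hf _ _ _, hB0 _ _ _⟩) le_rfl (κ := (1 - ε / 2) * θ)
    (mul_nonneg (by linarith) t0.le) (by simp) k (AA cl α id) (by simp) fun _ _ => card_le_univ _
  rw [card_AA hj injective_id, Fintype.card_fin, gt_bl hT.pd, P057RH.card_cells] at A2
  have A3 := lt_of_not_ge fun k => (numB e1 t0 t4 hc.card_ne_zero hX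
    (by rw [← hp]; simpa using a5)).not_ge (A0.trans (A1.trans (A2 k)))
  obtain ⟨Z1, hZ1, A4⟩ := drop' (m := n + 1) (cl := Prod.fst) (by simp) hT
    (show (bl Z0 (Fin (q + 1 + 1))).Ok from ok_pb hZ0 _ _) hf (K := Real.exp L) fun x =>
      (ms_smul_le (posDef_bk hT.pd _) (le_add_of_le_of_nonneg one_le_two (by positivity)) x).trans
        (a7 _ (Nat.cast_nonneg _) (by
          have := (Nat.cast_le (α := ℝ)).2 (card_JF (C := Fin n) (N := Fin (q + 1 + 1)))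
          simpa only [Fintype.card_fin, Nat.cast_mul, Nat.cast_pow, Nat.cast_succ (q + 1 + 1),
            ← hp] using this))
  obtain ⟨Z2, hZ2, A5⟩ := gs_of_grid (by omega) (P057DW.ok_scl hT (n + 1)) hZ1 hf (n + 1)
  refine ⟨Z2, hZ2, le_trans (numC e0.le e1 t0.le (le_trans (le_of_eq (by simp))
    (A3.le.trans A4)) ?_) A5⟩
  have j2 := card_small (C := Fin n) (N := Fin (q + 1 + 1)) (by simp)
  refine (mul_le_mul_of_nonneg_right (Nat.cast_le.2 j2) L0).trans ?_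
  simp only [Fintype.card_fin, Nat.cast_mul, Nat.cast_pow, ← hp, Nat.cast_ofNat]
  rw [pow_succ, mul_comm (3 ^ n), mul_assoc, mul_assoc]
  exact mul_le_mul_of_nonneg_left a6 (by rw [hp]; positivity)

theorem num2 {X Y p A : ℝ} {s n : ℕ} (hn : (n : ℝ) + 1 ≤ s) (X1 : 12 ≤ X) (x1 : X ≤ Y)
    (x2 : Y ≤ Real.exp X) (x3 : (s + 1) ^ (s + 1) ≤ X) (p0 : 0 ≤ p) (p3 : p + 1 ≤ Y ^ 5)
    (hA : X ^ 2 ≤ A) : ((n + 1) * p + 1) * (s + 1) ^ s ≤ Real.exp A := by
  have c7 : (0 : ℝ) ≤ n := n.cast_nonneg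
  calc _ ≤ (s + 1) * Real.exp X ^ 5 * (s + 1) ^ s := by
        refine mul_le_mul_of_nonneg_right ?_ (by positivity)
        nlinarith [pow_le_pow_left₀ (by linarith) x2 5]
    _ = (s + 1) ^ (s + 1) * Real.exp X ^ 5 := by ring
    _ ≤ Real.exp X * Real.exp X ^ 5 :=
        mul_le_mul_of_nonneg_right (by linarith [Real.add_one_le_exp X]) (by positivity)
    _ ≤ _ := by
        rw [← pow_succ', ← Real.exp_nat_mul, Real.exp_le_exp]
        push_cast
        nlinarith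

theorem num4 {X θ A U : ℝ} {k : ℕ} (X1 : 12 ≤ X) (t0 : 0 ≤ θ) (t4 : θ ≤ 4) (hk : (k : ℝ) ≤ U)
    (U1 : 1 ≤ U) (hA : U * X ^ 2 ≤ A) : θ ^ k * (3 * Real.exp (-(A / 2))) ≤ Real.exp (-X) / 4 := by
  have b1 : θ ^ k ≤ Real.exp (3 * U) := by
    refine (pow_le_pow_left₀ t0 (t4.trans (by linarith [Real.add_one_le_exp 3] :
      4 ≤ Real.exp 3)) _).trans ?_
    rw [← Real.exp_nat_mul, Real.exp_le_exp]
    linarith
  have b2 : Real.exp X * (Real.exp (3 * U) * Real.exp (-(A / 2))) ≤ Real.exp (-X) := by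
    rw [← Real.exp_add, ← Real.exp_add, Real.exp_le_exp]
    nlinarith [mul_le_mul_of_nonneg_left X1 (show 0 ≤ U * X by positivity),
      mul_le_mul_of_nonneg_left X1 (show 0 ≤ U by positivity),
      mul_le_mul_of_nonneg_right U1 (show 0 ≤ X by positivity)]
  have := Real.exp_pos (-(A / 2))
  linarith [mul_le_mul_of_nonneg_right b1 this.le, mul_le_mul_of_nonneg_right
    (show 12 ≤ Real.exp X by linarith [Real.add_one_le_exp X])
      (mul_pos (Real.exp_pos (3 * U)) this).le]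

theorem num7 {Y p J y r : ℝ} {s n D : ℕ} (hn : (n : ℝ) + 1 ≤ s) (Y1 : 12 ≤ Y) (p0 : 0 ≤ p)
    (p3 : p + 1 ≤ Y ^ 5) (J0 : 0 ≤ J) (hJ : J ≤ (p + 1) ^ n * p) (hD : (D : ℝ) ≤ Y) (hy : y ≤ Y)
    (r0 : 0 ≤ r) (hr : r ≤ Real.exp (y + 4 * (D + 1) ^ 2)) :
    (2 + 3 * J ^ 2) ^ D * r ≤ Real.exp ((10 * s + 18) * Y ^ 2) := by
  have c3 : (0 : ℝ) ≤ s := s.cast_nonneg
  have j1 : J ≤ Real.exp (5 * s * Y) :=
    calc J ≤ (p + 1) ^ n * (p + 1) := hJ.trans (by gcongr; linarith)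
      _ ≤ (Real.exp Y ^ 5) ^ (n + 1) := by
          rw [← pow_succ]
          refine pow_le_pow_left₀ (by linarith) (p3.trans (pow_le_pow_left₀ (by linarith) ?_ 5)) _
          linarith [Real.add_one_le_exp Y]
      _ ≤ _ := by
          rw [← Real.exp_nat_mul, ← Real.exp_nat_mul, Real.exp_le_exp]
          push_cast
          nlinarith
  have b0 : 1 ≤ Real.exp (5 * s * Y) ^ 2 := one_le_pow₀ (Real.one_le_exp (by positivity))
  have b1 := pow_le_pow_left₀ J0 j1 2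
  have b2 : 5 ≤ Real.exp Y := by linarith [Real.add_one_le_exp Y]
  refine (mul_le_mul (pow_le_pow_left₀ (by positivity) (show _ ≤ Real.exp Y *
    Real.exp (5 * s * Y) ^ 2 by nlinarith) _) hr r0 (by positivity)).trans ?_
  rw [← Real.exp_nat_mul, ← Real.exp_add, ← Real.exp_nat_mul, ← Real.exp_add, Real.exp_le_exp]
  push_cast
  nlinarith [mul_le_mul_of_nonneg_right hD (show 0 ≤ Y + 2 * (5 * s * Y) by positivity),
    pow_le_pow_left₀ D.cast_nonneg hD 2]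

theorem cd (hC : CUB) (s : ℕ) : CD s := by
  intro ε hε hε'
  refine ⟨⌈2 / ε⌉₊ + 3 ^ s * (10 * s + 18) + (s + 1) ^ (s + 1) + s + 12,
    fun M P T n W _ _ cl Z f θ B κ σ hP hT hX hZ hn hf t0 t4 hc hW _ hκ hσ h hL => ?_⟩
  have x0 := hP.big (n + 2)
  have x1 := hP.anti (n + 1)
  have x2 : P (n + 1) ≤ Real.exp (P (n + 2)) := (P057RG.lad_le hP (Nat.zero_le _)).trans
    ((Real.le_exp_log _).trans (Real.exp_le_exp.2 (hP.lg.trans (P057RG.lad_le hP (by omega)))))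
  have x3 := hX (n + 1)
  have x4 := P057TE.ms_blk hT hP.one (n + 1)
  replace t0 := (Real.exp_pos _).trans_le t0
  obtain ⟨c, hc'⟩ : ∃ c, c = ⌈2 / ε⌉₊ + 3 ^ s * (10 * s + 18) + (s + 1) ^ (s + 1) + s + 12 := ⟨_, rfl⟩
  rw [← hc'] at hL ⊢
  rw [← P057TE.card_lv] at x3 x4
  generalize P (n + 2) = X at *
  generalize P (n + 1) = Y at *
  push_cast at x0
  have c1 := Nat.le_ceil (2 / ε)
  have c2 : 0 < 2 / ε := by positivity
  have c3 : (0 : ℝ) ≤ s := s.cast_nonneg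
  have c4 : (n : ℝ) + 1 ≤ s := by exact_mod_cast hn
  have c5 : (0 : ℝ) ≤ 3 ^ s * (10 * s + 18) := by positivity
  have c6 : (0 : ℝ) ≤ (s + 1) ^ (s + 1) := by positivity
  have X1 : 12 ≤ X := by linarith
  have Y0 : 1 ≤ Y := by linarith
  have Y1 : 2 ≤ ε * Y := by rw [← div_le_iff₀' hε]; linarith
  have Y2 : ∀ i : ℕ, 12 * Y ^ i ≤ Y ^ (i + 1) := fun i => by
    rw [pow_succ']; exact mul_le_mul_of_nonneg_right (by linarith) (by positivity)
  have Y3 := Y2 1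
  have Y4 := Y2 2
  have Y5 := Y2 3
  have Y6 := Y2 4
  norm_num at Y3 Y4 Y5 Y6
  have p1 := Nat.le_ceil (Y ^ 4)
  have p2 := Nat.ceil_lt_add_one (show 0 ≤ Y ^ 4 by positivity)
  obtain ⟨q, hq⟩ : ∃ q, ⌈Y ^ 4⌉₊ = q + 1 + 1 :=
    ⟨⌈Y ^ 4⌉₊ - 2, by have : 2 ≤ ⌈Y ^ 4⌉₊ := by exact_mod_cast (show (2 : ℝ) ≤ ⌈Y ^ 4⌉₊ by linarith)
                      omega⟩
  rw [hq] at p1 p2
  obtain ⟨p, hp⟩ : ∃ p : ℝ, p = (q + 1 + 1 : ℕ) := ⟨_, rfl⟩
  rw [← hp] at p1 p2
  have p3 : p + 1 ≤ Y ^ 5 := by linarith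
  have p4 : Y ^ 5 * Y ≤ Y ^ c := by rw [← pow_succ]; exact pow_le_pow_right₀ Y0 (by omega)
  have p5 : p * Y ≤ Y ^ c := (mul_le_mul_of_nonneg_right (by linarith) (by linarith)).trans p4
  have p0 : 0 ≤ p := by linarith
  have p6 : 2 * Y ^ 3 ≤ p * ε := by
    linarith [mul_le_mul_of_nonneg_right p1 hε.le,
      mul_le_mul_of_nonneg_right Y1 (show 0 ≤ Y ^ 3 by linarith)]
  have X2 : X ^ s * X ^ 2 ≤ X ^ c := by rw [← pow_add]; exact pow_le_pow_right₀ (by linarith) (by omega)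
  have X3 : 1 ≤ X ^ s := one_le_pow₀ (by linarith)
  have X4 : X ^ 2 ≤ X ^ c := pow_le_pow_right₀ (by linarith) (by omega)
  have j3 : (3 : ℝ) ^ n * (10 * s + 18) ≤ Y :=
    (mul_le_mul_of_nonneg_right (pow_le_pow_right₀ (by norm_num) (by omega : n ≤ s))
      (by positivity)).trans
      (by linarith)
  refine ⟨q + 1 + 1, by omega, by rw [← hp]; linarith [mul_le_mul_of_nonneg_left Y0 p0],
    cd_core hC hT hZ hf hε (by linarith) t0 t4 hc hp (by linarith) hκ hσ h hL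
      (by linarith [mul_le_mul_of_nonneg_left (show (n : ℝ) + 1 ≤ Y by linarith) p0])
      (num2 c4 X1 x1 x2 (by linarith) p0 p3 X4) (by nlinarith) (by linarith) (by positivity)
      (num4 X1 t0.le t4 ?_ X3 X2) (by linarith)
      (by linarith [mul_le_mul_of_nonneg_right j3 (sq_nonneg Y)]) fun J J0 hJ =>
        num7 c4 (by linarith) p0 p3 J0 hJ x3.1 x3.2 (ms_nonneg _ _) x4⟩
  refine le_trans (by exact_mod_cast cells_le) ((pow_le_pow_left₀ (by positivity) hW _).trans ?_)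
  exact pow_le_pow_right₀ (by linarith) (by simp; omega)

end

end Vale.Agent.P057GH
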