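import Vale.Agent.P057GH.Pt
import Vale.Agent.P057GH.Mix

/-! Copies of the special vertex under a weight on the pure labels. -/

set_option linter.all false

open Matrix Finset Function
open scoped ENNReal
open Vale.Agent.P267.H775 Vale.Agent.P057G Vale.Agent.P057PC Vale.Agent.P057TP Vale.Agent.P057ST
open Vale.Agent.P057MA Vale.Agent.P057RH Vale.Agent.P057S1

namespace Vale.Agent.P057GH

noncomputable section

section abs

variable {C N V : Type} [Fintype C] [DecidableEq C] [Fintype N] [DecidableEq N] [DecidableEq V]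
  {v0 : V}

/-- the cut factors -/
def cE (v0 : V) (A : C → Finset N) (h : Fc C N → Vw C V → ℝ) : Fc C N → Vw C V → ℝ≥0∞ :=
  ct v0 A fun φ u => ENNReal.ofReal (h φ u)

theorem prod_ct {h : Fc C N → Vw C V → ℝ} (h0 : ∀ φ u, 0 ≤ h φ u) (A : C → Finset N)
    (a : Fc C N → V) :
    ∏ φ, cE v0 A h φ (vw a φ) = ENNReal.ofReal (tm (fun _ _ => 1) v0 (rect A) h a) := by
  rw [tm, ENNReal.ofReal_prod_of_nonneg fun φ _ => ?_]
  · refine prod_congr rfl fun φ _ => ?_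
    simp only [cE, ct, fam, one_mul]
    split_ifs
    · rfl
    · unfold dl; split_ifs <;> simp
  · unfold fam dl
    split_ifs
    exacts [mul_nonneg zero_le_one (h0 _ _), zero_le_one, le_rfl]

theorem lt_copy {h : Fc C N → Vw C V → ℝ} (h0 : ∀ φ u, 0 ≤ h φ u) {i : C} {A : C → Finset N}
    {c0 : N} (hA : c0 ∈ A i) (hs : ∀ K, Summable (tm (fun _ _ => 1) v0 K h))
    (hr : ∀ φ, h (rp {i} (fun _ => c0) φ) = h φ) (B : Finset N) :
    ENNReal.ofReal (Lt (fun _ _ => 1) v0 (rect (update A i B)) h) =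
      ∑' x, fr i (cE v0 A h) x * bsE i (at' i c0 (cE v0 A h)) x ^ B.card := by
  have := lamE_copy (on_ct v0 A fun φ u => ENNReal.ofReal (h φ u)) (A' := update A i B) (i := i)
    (fun j hj => update_of_ne hj _ _) (fun _ => c0) hA
  rw [update_self] at this
  rw [Lt, ENNReal.ofReal_tsum_of_nonneg (tm_nonneg (fun _ _ => zero_le_one) _ h0) (hs _), cE, ← this]
  refine tsum_congr fun a => ?_
  rw [← prod_ct h0]
  refine prod_congr rfl fun φ _ => congrFun ?_ _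
  unfold cE ct
  split_ifs with k
  · dsimp only
    rw [if_pos, hr]
    intro j l e
    by_cases n : j = i
    · subst n
      obtain ⟨_, -, rfl⟩ := Option.map_eq_some_iff.1 ((if_pos (mem_singleton_self j)).symm.trans e)
      exact hA
    · exact update_of_ne n B A ▸ k j l ((if_neg (mt mem_singleton.1 n)).symm.trans e)
  · rfl

theorem lt_psi {h : Fc C N → Vw C V → ℝ} (h0 : ∀ φ u, 0 ≤ h φ u) {i : C} {A : C → Finset N}
    {c0 : N} (hA : A i = {c0}) (hs : ∀ K, Summable (tm (fun _ _ => 1) v0 K h))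
    {Ψ : (Fm C N i → V) → ℝ} (hΨ : ∀ x, 0 ≤ Ψ x ∧ Ψ x ≤ 1) :
    ENNReal.ofReal (∑' a, tm (fun _ _ => 1) v0 (rect A) h a * Ψ fun ψ => a ψ.1) =
      ∑' x, fr i (cE v0 A h) x * ENNReal.ofReal (Ψ x) * bsE i (at' i c0 (cE v0 A h)) x := by
  have t0 := tm_nonneg (v0 := v0) (fun _ _ => zero_le_one) (rect A) h0
  rw [ENNReal.ofReal_tsum_of_nonneg (fun a => mul_nonneg (t0 a) (hΨ _).1)
    (summable_mul_real (hs _) t0 (C := 1) fun a => by rw [abs_of_nonneg (hΨ _).1]; exact (hΨ _).2)]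
  simp only [ENNReal.ofReal_mul (t0 _), ← prod_ct h0]
  rw [lamE_fac' i _ fun x => ENNReal.ofReal (Ψ x)]
  simp only [cE, (on_ct v0 A _).fac, hA, prod_singleton]

theorem cpy_face {h1 h2 : Fc C N → Vw C V → ℝ} (p1 : ∀ φ u, 0 ≤ h1 φ u) (p2 : ∀ φ u, 0 ≤ h2 φ u)
    {i : C} {A : C → Finset N} {c0 c1 : N} (hc : c0 ≠ c1) (hA : A i = {c0})
    (s1 : ∀ K, Summable (tm (fun _ _ => 1) v0 K h1)) (s2 : ∀ K, Summable (tm (fun _ _ => 1) v0 K h2))
    (r1 : ∀ φ, h1 (rp {i} (fun _ => c0) φ) = h1 φ) (r2 : ∀ φ, h2 (rp {i} (fun _ => c0) φ) = h2 φ)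
    (e : ∀ φ, φ i = none → h2 φ = h1 φ) {a κ θ : ℝ} (a0 : 0 < a) (a1 : a ≤ 1) (k0 : 0 < κ)
    (t0 : 0 ≤ θ) (hm : ∀ B, |Lt (fun _ _ => 1) v0 (rect (update A i B)) h1 - 1| ≤ a ^ 2)
    {Ψ : (Fm C N i → V) → ℝ} (hΨ : ∀ x, 0 ≤ Ψ x ∧ Ψ x ≤ 1)
    (h : κ + κ + θ * ∑' x, tm (fun _ _ => 1) v0 (rect A) h1 x * Ψ (fun ψ => x ψ.1) ≤
      ∑' x, tm (fun _ _ => 1) v0 (rect A) h2 x * Ψ fun ψ => x ψ.1) (hε : θ * (3 * a) ≤ κ) {p : ℕ}
    (hp : Fintype.card N = p + 1) :
    θ ^ p * κ ≤ Lt (fun _ _ => 1) v0 (rect (update A i univ)) h2 := by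
  have c : c0 ∈ A i := hA ▸ mem_singleton_self c0
  have e1 : fr i (cE v0 A h2) = fr i (cE v0 A h1) := funext fun x => prod_congr rfl fun ψ _ => by
    simp only [cE, ct, e _ ψ.2]
  have m1 : ∀ B, ENNReal.ofReal (Lt (fun _ _ => 1) v0 (rect (update A i B)) h1) ≤
      1 + ENNReal.ofReal a ^ 2 := fun B => by
    rw [← ENNReal.ofReal_pow a0.le, ← ENNReal.ofReal_one, ← ENNReal.ofReal_add zero_le_one (by positivity)]
    exact ENNReal.ofReal_le_ofReal (by linarith [(abs_le.1 (hm B)).2])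
  have H := cpy2 (fr i (cE v0 A h1)) (fun x => ENNReal.ofReal (Ψ x))
    (bsE i (at' i c0 (cE v0 A h1))) (bsE i (at' i c0 (cE v0 A h2)))
    (fun x => ENNReal.ofReal_le_one.2 (hΨ x).2) (a := .ofReal a) (κ := .ofReal κ) (θ := .ofReal θ)
    (ENNReal.ofReal_le_one.2 a1) (by simpa using a0)
    (by simpa [lt_copy p1 c s1 r1] using m1 ∅)
    (by
      have := lt_copy p1 c s1 r1 {c0}
      rw [card_singleton] at this
      simp only [pow_one] at this
      rw [← this, ← ENNReal.ofReal_pow a0.le, ← ENNReal.ofReal_one]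
      exact (ENNReal.ofReal_le_ofReal (by linarith [(abs_le.1 (hm {c0})).1])).trans
        ENNReal.ofReal_add_le)
    (by simpa only [lt_copy p1 c s1 r1, card_pair hc] using m1 {c0, c1})
    (by
      rw [← lt_psi p1 hA s1 hΨ, ← e1, ← lt_psi p2 hA s2 hΨ, ← ENNReal.ofReal_mul t0,
        ← ENNReal.ofReal_add k0.le k0.le, ← ENNReal.ofReal_add (by positivity) (mul_nonneg t0
          (tsum_nonneg fun x => mul_nonneg (tm_nonneg (fun _ _ => zero_le_one) _ p1 _) (hΨ _).1))]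
      exact ENNReal.ofReal_le_ofReal h)
    (by
      rw [← ENNReal.ofReal_ofNat, ← ENNReal.ofReal_mul (by norm_num), ← ENNReal.ofReal_mul t0]
      exact ENNReal.ofReal_le_ofReal hε) (by simpa using k0) ENNReal.ofReal_ne_top p
  rw [← e1, ← hp, ← card_univ, ← lt_copy p2 c s2 r2, ← ENNReal.ofReal_pow t0,
    ← ENNReal.ofReal_mul (pow_nonneg t0 p)] at H
  exact (ENNReal.ofReal_le_ofReal_iff (tsum_nonneg (tm_nonneg (fun _ _ => zero_le_one) _ p2))).1 H

end abs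

variable {C N W : Type} {T : Tow} {m s : ℕ} {M : ℝ} [Fintype C] [DecidableEq C] [Fintype N]
  [DecidableEq N] [Fintype W] [DecidableEq W] {cl : W → C} {α : W → N} {c0 : N}

theorem lt_mass (hC : CUB) (hT : T.Ok s M) {Y : Sys T (C × N) N} (hY : Y.Ok) (c0 : N) {d : ℕ}
    (hd : m ≤ d + 1) {n A : ℝ} (hL : T.LFd d n A)
    (hn : (Fintype.card (C × N) + Fintype.card N : ℝ) ≤ n)
    (hA : (Fintype.card (C × N) + Fintype.card N + 1 : ℝ) * (s + 1) ^ s ≤ Real.exp A)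
    {K : Fc (Option C) N → Prop} (hK : DC K) :
    |Lt (fun _ _ => 1) 0 K (fun φ u => hz Y m c0 φ u * 1) - 1| ≤ Real.exp (-A) := by
  classical
  rw [lt_ms hT.pd]
  exact cub_q hC hT hY (fun l l' h h1 h2 _ => fl_res h1 h2 ▸ hK _ h _)
    (fun l l' h h1 h2 => by rwa [fl, h1, h2]) hd hL hn hA 0

open Classical in
/-- the system pushed into the grid -/
def psh (Z : Sys T W Unit) (cl : W → C) (α : W → N) : Sys T (C × N) N :=
  ⟨fsb Z.fam (fun w => MvPolynomial.X (some (jj cl α w))) fun _ => (),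
    fun c _ => Z.off (univ.filter fun w => jj cl α w ∈ c) ()⟩

theorem ok_psh {Z : Sys T W Unit} (h : Z.Ok) : (psh Z cl α).Ok :=
  ⟨ok_fsb h.fam (fun _ => MvPolynomial.isHomogeneous_X _ _) (fun _ => kt_some _) _,
    fun a => (top_fsb _ (fun w => by simp) _ a).trans (h.top a)⟩

theorem sim_psh (Z : Sys T W Unit) (hj : Injective (jj cl α)) (c0 : N) :
    Sim cl Z (pb (psh Z cl α) (jj cl α) fun _ => c0) :=
  ⟨fun o A _ a => by
    rw [at_pb _ _ _ hj.injOn, psh, at_fsb (B := A) _ _ _ fun w => by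
      simp [evA, hj.eq_iff]]
    cases o <;> rfl,
  fun c _ t => congrArg (Z.off · ()) (by ext w; simp [hj.mem_finset_image])⟩

theorem rc_psh (Z : Sys T W Unit) (φ : Fc (Option C) N) :
    rc (psh Z cl α) (ch c0 (rp {none} (fun _ => c0) φ)) = rc (psh Z cl α) (ch c0 φ) := by
  have : em (ch c0 (rp {none} (fun _ => c0) φ)) = em (ch c0 φ) := funext fun i => by
    simp [em, ch, rp]
  simp only [rc, this, pb, fsb, psh, Option.map_map]
  rfl

theorem upd_AA : update (AA cl α fun _ : Unit => c0) none univ = AA cl α id := by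
  funext x
  cases x with
  | none => simp [AA]
  | some i => simp [AA]

/-- copies of the special vertex -/
theorem cpy_sp (hC : CUB) (hT : T.Ok s M) {Z : Sys T W Unit} (hZ : Z.Ok) (hα : Injective α)
    {c1 : N} (hc : c0 ≠ c1) {f : ℤ → ℝ} (hf : Unit01 f) {θ B κ σ a κ0 : ℝ} (hθ : 0 ≤ θ) (hσ : 0 < σ)
    (h : Z.SP cl m f θ B κ σ) {d : ℕ} (hd : m ≤ d + 1) {n A : ℝ} (hL : T.LFd d n A)
    (hn : (Fintype.card (C × N) + Fintype.card N : ℝ) ≤ n)
    (hA : (Fintype.card (C × N) + Fintype.card N + 1 : ℝ) * (s + 1) ^ s ≤ Real.exp A)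
    (a0 : 0 < a) (a1 : a ≤ 1 / 2) (ha : Real.exp (-A) ≤ a ^ 2) (k0 : 0 < κ0) (k1 : 4 * κ0 ≤ κ)
    (hε : θ ^ (cells cl).card * (3 * a) ≤ κ0) {p : ℕ} (hp : Fintype.card N = p + 1) :
    (θ ^ (cells cl).card) ^ p * κ0 ≤ Lt (fun _ _ => 1) 0 (rect (AA cl α id))
      fun φ u => hz (psh Z cl α) m c0 φ u * tF (psh Z cl α) m f c0 φ u := by
  classical
  obtain ⟨u, u1, u2, -, h⟩ := h
  have hj : Injective (jj cl α) := fun _ _ e => hα (congrArg Prod.snd e)
  have hY := ok_psh (cl := cl) (α := α) hZ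
  have hS := sim_psh Z hj c0
  have hl := lift_inj (m := m) (T := T) (jj_hc cl α) hj (unit_inj c0)
  have hm := fun K hK => (lt_mass (m := m) hC hT hY c0 hd hL hn hA (K := K) hK).trans ha
  obtain ⟨B1, hB⟩ := tF_bdd (m := m) (c0 := c0) hT hY hf
  obtain ⟨B2, hB2⟩ := PF_bdd hT hZ cl m hf
  obtain ⟨Ψ, hΨ⟩ : ∃ Ψ : (Fm (Option C) N none → L0 T C m → ℤ) → ℝ, Ψ = fun x => u fun l =>
      if e : l.bs = none then x ⟨fl (lift (jj_hc cl α) (fun _ => c0) l), congrArg (Option.map _) e⟩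
        (surjInv (EE_bij c0).2 (lift (jj_hc cl α) (fun _ => c0) l)).1.1 else 0 := ⟨_, rfl⟩
  have e1 : ∀ z, Ψ (fun ψ => cz c0 (extend (lift (jj_hc cl α) fun _ => c0) z 0) ψ.1) = u z :=
    fun z => (congrFun hΨ _).trans (u1 _ _ fun l e => by
      rw [dif_pos e]
      obtain ⟨b, hb⟩ : ∃ b, b = surjInv (EE_bij c0).2 (lift (jj_hc cl α) (fun _ => c0) l) := ⟨_, rfl⟩
      have k : lc b.1.2 b.1.1 = lift (jj_hc cl α) (fun _ => c0) l := hb ▸ surjInv_eq (EE_bij c0).2 _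
      rw [← hb, ← hl.extend_apply z 0 l]
      have := cz_fl (c0 := c0) (extend (lift (jj_hc cl α) fun _ => c0) z 0) b.1.2 b.1.1
      rwa [k] at this)
  have e2 := fun g => face_tsum (c0 := c0) hT.pd hl (range_lift hj) (psh Z cl α) g
    (fun x r => r * Ψ fun ψ => x ψ.1) fun _ => zero_mul _
  have s0 := summable_w (cl := cl) (m := m) hT hZ
  have u3 : ∀ z, |u z| ≤ 1 := fun z => by rw [abs_of_nonneg (u2 z).1]; exact (u2 z).2
  have s1 := summable_mul_real s0 (w_nonneg Z) u3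
  have s2 := summable_mul_real (summable_mul_real s0 (w_nonneg Z) hB2)
    (fun z => mul_nonneg (w_nonneg Z z) (PF_nonneg Z hf z)) u3
  have m0 := (abs_le.1 (hm _ (dc_rect (AA cl α fun _ : Unit => c0)))).1
  rw [Lt, face_tsum hT.pd hl (range_lift hj) _ _ (fun _ r => r) fun _ => rfl] at m0
  simp only [tm_w hT.pd hj (unit_inj c0) hS] at m0
  simp only [ite_self, prod_const_one, mul_one] at m0
  rw [← upd_AA (c0 := c0)]
  refine cpy_face (h1 := fun φ u => hz (psh Z cl α) m c0 φ u * 1) (Ψ := Ψ)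
    (fun φ u => mul_nonneg (hz_nonneg hT.pd _ _ _) zero_le_one)
    (fun φ u => mul_nonneg (hz_nonneg hT.pd _ _ _) (tF_nonneg _ hf _ _)) hc (by simp [AA])
    (fun K => summable_hz (Z := fun φ => rc _ (ch c0 φ)) hT (fun φ => ok_pb hY _ _) c0
      fun _ _ => abs_one.le)
    (fun K => summable_hz (Z := fun φ => rc _ (ch c0 φ)) hT (fun φ => ok_pb hY _ _) c0 hB)
    (fun φ => by simp only [hz, rc_psh, sp_rp]) (fun φ => by simp only [hz, tF, rc_psh, sp_rp])
    (fun φ e => funext fun u => by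
      rw [tF, if_neg fun k : sp φ = univ => mem_sp.1 (k ▸ mem_univ none) e]) a0 (by linarith) k0
    (pow_nonneg hθ _) (fun B => hm _ (dc_rect _)) (fun x => hΨ ▸ u2 _) ?_ hε hp
  rw [e2, e2]
  simp only [tm_PF hT.pd hj (unit_inj c0) hS, e1]
  simp only [tm_w hT.pd hj (unit_inj c0) hS]
  simp only [ite_self, prod_const_one, mul_one]
  have e3 : ∀ z, Z.w cl m z * (u z * Z.Ex0 cl m f θ z - κ) = Z.w cl m z * Z.PF cl m f z * u z -
      θ ^ (cells cl).card * (Z.w cl m z * u z) - κ * Z.w cl m z := fun z => by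
    simp only [Sys.Ex0, Fintype.card_unit, mul_one]; ring
  simp only [e3] at h
  rw [(s2.sub (s1.mul_left _)).tsum_sub (s0.mul_left _), s2.tsum_sub (s1.mul_left _),
    tsum_mul_left, tsum_mul_left] at h
  nlinarith [mul_le_mul k1 (show 1 / 2 ≤ ∑' z, Z.w cl m z by nlinarith) (by norm_num) (by linarith)]

end

end Vale.Agent.P057GH
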