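import Vale.Agent.P057GH.Pt
import Vale.Agent.P057GH.Mix
import Vale.Agent.P057TP.Alg1

/-! Removing the top level of labels below the cells. -/

set_option linter.all false

open Matrix Finset Function
open scoped ENNReal
open Vale.Agent.P267.H775 Vale.Agent.P057G Vale.Agent.P057PC Vale.Agent.P057TP Vale.Agent.P057ST
open Vale.Agent.P057S1

namespace Vale.Agent.P057GH

noncomputable section

theorem ofReal_er {L : Type} [Fintype L] [DecidableEq L] {lv : L → ℕ} {p : (L → ℤ) → L → ℝ}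
    (hp : Tri lv p) {G : Matrix L L ℝ} (hG : G.PosDef) {f : (L → ℤ) → ℝ} {B : ℝ}
    (h0 : ∀ z, 0 ≤ f z) (hf : ∀ z, |f z| ≤ B) : ENNReal.ofReal (Er G p f) =
      ∑' z, nE G (toR z - p z) * ENNReal.ofReal (f z) := by
  rw [Er, ENNReal.ofReal_tsum_of_nonneg (fun z => mul_nonneg (ng_nonneg _ _) (h0 z))
    (summable_er hp hG hf)]
  simp only [nE, ENNReal.ofReal_mul (ng_nonneg _ _)]

theorem tsum_split {A B L : Type} (e : A ⊕ B ≃ L) (g : (L → ℤ) → ℝ≥0∞) :
    ∑' z, g z = ∑' x : A → ℤ, ∑' y : B → ℤ, g (Sum.elim x y ∘ e.symm) := by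
  rw [← ENNReal.tsum_prod, ← ((Equiv.sumArrowEquivProdArrow A B ℤ).symm.trans
    (e.arrowCongr (Equiv.refl ℤ))).tsum_eq]
  rfl

theorem ng_sum {A B L : Type} [Fintype A] [Fintype B] [Fintype L] [DecidableEq A] [DecidableEq B]
    [DecidableEq L] (e : A ⊕ B ≃ L) {G : Matrix L L ℝ} {G1 : Matrix A A ℝ} {G2 : Matrix B B ℝ}
    (h1 : G1.PosDef) (h : G.submatrix e e = fromBlocks G1 0 0 G2) (v : L → ℝ) :
    ng G v = ng G1 (fun a => v (e (.inl a))) * ng G2 fun b => v (e (.inr b)) := by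
  rw [← ng_submatrix G e, h, ng_blocks h1]; rfl

variable {C W S : Type} {T : Tow} {m s : ℕ} {M : ℝ}

/-- lower coordinates from `b`, upper ones from `y` -/
def gl (m : ℕ) (b : T.ι → ℤ) (y : {a // m ≤ T.lv a} → ℤ) (a : T.ι) : ℤ :=
  if h : m ≤ T.lv a then y ⟨a, h⟩ else b a

/-- the coordinates of level `m` from `y` -/
def gi (m : ℕ) (b : T.ι → ℤ) (y : {a // T.lv a = m} → ℤ) (a : T.ι) : ℤ :=
  if h : T.lv a = m then y ⟨a, h⟩ else b a

variable [Fintype W] [DecidableEq W] [Fintype S] {cl : W → C}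

/-- the function on a cell in terms of the lower part of the point -/
def FU (Z : Sys T W S) (m : ℕ) (G : Matrix {a // m ≤ T.lv a} {a // m ≤ T.lv a} ℝ) (f : ℤ → ℝ)
    (c : Finset W) (t : S) (b : T.ι → ℤ) : ℝ :=
  Er G (fun y a => MvPolynomial.eval (toR (gl m b y)) (Z.fam.at' (some t) c a))
    fun y => f (Z.off c t + T.el ⬝ᵥ gl m b y)

theorem tri_gl (hT : T.Ok s M) {Z : Sys T W S} (h : Z.Ok) (c : Finset W) (t : S) (b : T.ι → ℤ) :
    Tri (fun a : {a // m ≤ T.lv a} => T.lv a.1)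
      fun y a => MvPolynomial.eval (toR (gl m b y)) (Z.fam.at' (some t) c a) := fun a y y' k =>
  eval_low hT h _ _ _ fun j hj => by
    simp only [toR_apply, gl]
    split_ifs with e
    exacts [by rw [k ⟨j, e⟩ hj], rfl]

theorem exists_E2 (T : Tow) (m : ℕ) :
    ∃ e : {a // T.lv a = m} ⊕ {a // m + 1 ≤ T.lv a} ≃ {a // m ≤ T.lv a},
      (∀ a, (e (.inl a)).1 = a.1) ∧ ∀ a, (e (.inr a)).1 = a.1 := by
  refine ⟨Equiv.ofBijective (Sum.elim (fun a => ⟨a.1, a.2.ge⟩) fun a => ⟨a.1, by omega⟩)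
    ⟨?_, fun a => ?_⟩, fun _ => rfl, fun _ => rfl⟩
  · rintro (a | a) (b | b) h <;> have h2 : a.1 = b.1 := (congrArg Subtype.val h :)
    · rw [Subtype.ext h2]
    · have := a.2; have := b.2; rw [h2] at *; omega
    · have := a.2; have := b.2; rw [h2] at *; omega
    · rw [Subtype.ext h2]
  · by_cases h : T.lv a.1 = m
    exacts [⟨.inl ⟨a.1, h⟩, rfl⟩, ⟨.inr ⟨a.1, by have := a.2; omega⟩, rfl⟩]

/-- the Gram matrix with the level `m` doubled -/
def G2 (T : Tow) (m : ℕ) : Matrix T.ι T.ι ℝ :=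
  Matrix.of fun a b => if T.lv a = m then 2 * T.G a b else T.G a b

theorem pd_scl (hT : T.Ok s M) (m : ℕ) : (G2 T m).PosDef := by
  have e : G2 T m = T.G + Matrix.of fun a b => if T.lv a = m then T.G a b else 0 := by
    ext a b
    simp only [G2, of_apply, Matrix.add_apply]
    split_ifs <;> ring
  have e2 : (Matrix.of fun a b => if T.lv a = m then T.G a b else 0) =
      (diagonal fun a => if T.lv a = m then (1 : ℝ) else 0)ᴴ * T.G *
        diagonal fun a => if T.lv a = m then (1 : ℝ) else 0 := by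
    ext a b
    simp only [of_apply, diagonal_conjTranspose, mul_diagonal, diagonal_mul, star_trivial]
    by_cases h : T.lv a = T.lv b
    · rw [h]; split_ifs <;> simp
    · simp [hT.blk a b h]
  rw [e, e2]
  exact hT.pd.add_posSemidef (hT.pd.posSemidef.conjTranspose_mul_mul_same _)

/-- splitting off the level `m` -/
theorem FU_split (hT : T.Ok s M) {Z Z' : Sys T W S} (h : Z.Ok) (h' : Z'.Ok) {f : ℤ → ℝ}
    (hf : Unit01 f) {c : Finset W} {t : S} {γ : {a // T.lv a = m} → ℝ}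
    (h1 : ∀ a : {a // T.lv a = m}, Z'.fam.at' (some t) c a =
      Z.fam.at' (some t) c a + MvPolynomial.C (γ a))
    (h2 : ∀ a, m + 1 ≤ T.lv a → Z'.fam.at' (some t) c a = Z.fam.at' (some t) c a)
    (h3 : Z'.off c t = Z.off c t) (b : T.ι → ℤ) :
    ENNReal.ofReal (FU Z' m (bk (G2 T m) fun a => m ≤ T.lv a) f c t b) =
      ∑' y : {a // T.lv a = m} → ℤ, nE ((2 : ℝ) • bk T.G fun a => T.lv a = m)
        (toR y - (fun a => MvPolynomial.eval (toR b) (Z.fam.at' (some t) c a.1)) - γ) *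
        ENNReal.ofReal (FU Z (m + 1) (bk T.G fun a => m + 1 ≤ T.lv a) f c t (gi m b y)) := by
  obtain ⟨e, e1, e2⟩ := exists_E2 T m
  have hG : (bk (G2 T m) fun a => m ≤ T.lv a).submatrix e e = fromBlocks
      ((2 : ℝ) • bk T.G fun a => T.lv a = m) 0 0 (bk T.G fun a => m + 1 ≤ T.lv a) := by
    ext (a | a) (b | b) <;> have := a.2 <;> have := b.2 <;>
      simp only [bk, G2, submatrix_apply, e1, e2, of_apply, fromBlocks_apply₁₁,
        fromBlocks_apply₁₂, fromBlocks_apply₂₁, fromBlocks_apply₂₂, Matrix.zero_apply]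
    · rw [if_pos a.2]; rfl
    · rw [hT.blk _ _ (by omega)]; simp
    · rw [hT.blk _ _ (by omega)]; simp
    · rw [if_neg (by omega)]
  have e3 : ∀ y y', gl m b (Sum.elim y y' ∘ e.symm) = gl (m + 1) (gi m b y) y' := fun y y' => by
    funext a
    unfold gl gi
    by_cases k : T.lv a = m
    · rw [dif_pos k.ge, dif_neg (by omega), dif_pos k, Function.comp_apply,
        (e.symm_apply_eq.2 (Subtype.ext (e1 ⟨a, k⟩).symm) : e.symm ⟨a, _⟩ = .inl ⟨a, k⟩)]
      rfl
    · by_cases k2 : m + 1 ≤ T.lv a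
      · rw [dif_pos (by omega), dif_pos k2, Function.comp_apply,
          (e.symm_apply_eq.2 (Subtype.ext (e2 ⟨a, k2⟩).symm) : e.symm ⟨a, _⟩ = .inr ⟨a, k2⟩)]
        rfl
      · rw [dif_neg (by omega), dif_neg k2, dif_neg k]
  rw [FU, ofReal_er (tri_gl hT h' c t b) (posDef_bk (pd_scl hT m) _) (fun _ => (hf _).1)
    fun _ => abs01 hf _, tsum_split e]
  refine tsum_congr fun y => ?_
  rw [FU, ofReal_er (tri_gl hT h c t _) (posDef_bk hT.pd _) (fun _ => (hf _).1) fun _ => abs01 hf _,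
    ← ENNReal.tsum_mul_left]
  refine tsum_congr fun y' => ?_
  rw [nE, ng_sum e ((posDef_bk hT.pd _).smul two_pos) hG, ENNReal.ofReal_mul (ng_nonneg _ _),
    mul_assoc, e3, h3]
  congr 4
  · funext a
    simp only [Pi.sub_apply, toR_apply, Function.comp, e.symm_apply_apply, Sum.elim_inl, e1, h1,
      map_add, MvPolynomial.eval_C, sub_sub, e3]
    congr 2
    refine eval_low hT h _ _ _ fun j hj => ?_
    have := a.2
    rw [toR_apply, toR_apply, gl, dif_neg (by omega), gi, dif_neg (by omega)]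
  · funext a
    simp only [Pi.sub_apply, toR_apply, Function.comp, e.symm_apply_apply, Sum.elim_inr, e2,
      h2 _ a.2, e3]

/-- faces with a base -/
@[ext] structure JF (cl : W → C) (S : Type) where
  A : Finset W
  t : S
  h : Set.InjOn cl A

instance : Fintype (JF cl S) := @Fintype.ofFinite _ (Finite.of_injective (fun j => (j.A, j.t))
  fun _ _ e => JF.ext (congrArg Prod.fst e) (congrArg Prod.snd e))
instance : DecidableEq (JF cl S) := Classical.decEq _

/-- a label as a label of the larger system -/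
def inc (l : Lb T cl S m) : Lb T cl S (m + 1) := ⟨l.1, l.2.1.trans (Nat.lt_succ_self m), l.2.2⟩

theorem card_lt [Fintype C] (hm : Fintype.card C < m) {A : Finset W} (h : Set.InjOn cl A) :
    A.card < m := (card_le_card_of_injOn cl (fun _ _ => mem_univ _) h).trans_lt hm

theorem exists_E1 [Fintype C] (T : Tow) (cl : W → C) (S : Type) (hm : Fintype.card C < m) :
    ∃ e : Lb T cl S m ⊕ ({a // T.lv a = m} × JF cl S) ≃ Lb T cl S (m + 1),
      (∀ l, e (.inl l) = inc l) ∧ ∀ a j, (e (.inr (a, j))).cd = a.1 ∧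
        (e (.inr (a, j))).fc = j.A ∧ (e (.inr (a, j))).bs = some j.t := by
  refine ⟨Equiv.ofBijective (Sum.elim inc fun x => ⟨(x.1.1, x.2.A, some x.2.t),
    x.1.2.trans_lt (Nat.lt_succ_self m), x.2.h, (card_lt hm x.2.h).trans_eq x.1.2.symm⟩)
    ⟨?_, fun l => ?_⟩, fun _ => rfl, fun _ _ => ⟨rfl, rfl, rfl⟩⟩
  · rintro (a | a) (b | b) h <;> have h2 := congrArg Subtype.val h
    · exact congrArg _ (Subtype.ext h2)
    · exact absurd (congrArg (fun x => T.lv x.1) h2) (a.2.1.trans_eq b.1.2.symm).ne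
    · exact absurd (congrArg (fun x => T.lv x.1) h2) (b.2.1.trans_eq a.1.2.symm).ne'
    · obtain ⟨h3, h4⟩ := Prod.mk.inj h2
      obtain ⟨h4, h5⟩ := Prod.mk.inj h4
      exact congrArg _ (Prod.ext (Subtype.ext h3) (JF.ext h4 (Option.some.inj h5)))
  · obtain ⟨⟨a, A, o⟩, h1, h2, h3⟩ := l
    by_cases h : T.lv a = m
    · cases o with
      | none => exact absurd (h3.trans h) (card_lt hm h2).ne
      | some t => exact ⟨.inr (⟨a, h⟩, ⟨A, t, h2⟩), rfl⟩
    · exact ⟨.inl ⟨(a, A, o), lt_of_le_of_ne (Nat.lt_succ_iff.1 h1) h, h2, h3⟩, rfl⟩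

theorem pt_inc {R : Type} [AddCommMonoid R] (x : Lb T cl S (m + 1) → R) (o : Option S)
    (B : Finset W) {a : T.ι} (ha : T.lv a < m) : pt (x ∘ inc) o B a = pt x o B a :=
  Fintype.sum_of_injective inc (fun _ _ h => Subtype.ext (congrArg Subtype.val h :)) _ _
    (fun l hl => if_neg fun k => hl ⟨⟨l.1, (congrArg T.lv k.1).trans_lt ha, l.2.2⟩, rfl⟩)
    fun _ => rfl

theorem pr_inc (hT : T.Ok s M) {Z : Sys T W S} (h : Z.Ok) (x : Lb T cl S (m + 1) → ℝ)
    (l : Lb T cl S (m + 1)) :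
    Z.pr cl (m + 1) x l = Z.fam.alt (pt (x ∘ inc)) l.bs l.fc l.cd :=
  sum_congr rfl fun B _ => by
    rw [eval_low hT h _ _ _ fun j hj => (pt_inc x _ B (by have := l.2.1; unfold Lb.cd at hj; omega)).symm]

/-- proper subfaces of cells -/
def RR (j k : JF cl S) : Prop := j.A ∈ cells cl ∧ k ≠ j ∧ k.t = j.t ∧ k.A ⊆ j.A

instance : DecidableRel (RR : JF cl S → _) := fun _ _ => Classical.dec _

theorem cell_eq {c c' : Finset W} (h : c ∈ cells cl) (h' : c' ∈ cells cl) (k : c' ⊆ c) : c' = c :=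
  k.antisymm fun v hv => by
    obtain ⟨u, h1, h2⟩ := (mem_cells.1 h').2 (cl v)
    exact (mem_cells.1 h).1 (k h1) hv h2 ▸ h1

theorem RR_top (j k : JF cl S) (h : RR j k) : j.A ∈ cells cl ∧ k.A ∉ cells cl :=
  ⟨h.1, fun e => h.2.1 (JF.ext (cell_eq h.1 e h.2.2.2) h.2.2.1)⟩

theorem ad_cell {α : Type} [AddCommGroup α] (g : Finset W → S → α) (j : JF cl S)
    (hj : j.A ∈ cells cl) :
    ad RR (fun k : JF cl S => g k.A k.t) j = ∑ A ∈ j.A.powerset, g A j.t := by
  rw [ad, ← add_sum_erase _ _ (mem_powerset_self _)]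
  congr 1
  refine sum_bij (fun k _ => k.A) (fun k hk => ?_) (fun k hk k' hk' e => ?_) (fun A hA => ?_)
    fun k hk => by rw [(mem_filter.1 hk).2.2.2.1]
  · obtain ⟨-, h1, h2, h3⟩ := (mem_filter.1 hk).2
    exact mem_erase.2 ⟨fun e => h1 (JF.ext e h2), mem_powerset.2 h3⟩
  · exact JF.ext e ((mem_filter.1 hk).2.2.2.1.trans (mem_filter.1 hk').2.2.2.1.symm)
  · obtain ⟨h1, h2⟩ := mem_erase.1 hA
    exact ⟨⟨A, j.t, j.h.mono (mem_powerset.1 h2)⟩, mem_filter.2 ⟨mem_univ _, hj,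
      fun e => h1 (congrArg JF.A e), rfl, mem_powerset.1 h2⟩, rfl⟩

/-- constants added to the polynomials -/
def adc (Z : Sys T W S) (x : Option S → T.ι → Lam ℝ W) : Sys T W S :=
  ⟨⟨fun o a => Z.fam.fn o a + MvPolynomial.C (x o a)⟩, Z.off⟩

theorem ok_adc {Z : Sys T W S} (h : Z.Ok) {x : Option S → T.ι → Lam ℝ W}
    (h1 : ∀ o a, (x o a).IsHomogeneous (T.lv a)) (h2 : ∀ o a, kt (x o a) = 0) : (adc Z x).Ok := by
  classical
  refine ⟨⟨fun o a β μ k => ?_, fun t a => ?_⟩, fun a => ?_⟩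
  · by_contra n
    refine k ?_
    simp only [adc, MvPolynomial.coeff_add, MvPolynomial.coeff_C]
    rw [not_not.1 (mt (h.fam.hom o a β μ) n), zero_add]
    split_ifs with e
    · refine (h1 o a).coeff_eq_zero fun e2 => n ?_
      rw [← e, map_zero, zero_add, e2]
    · rfl
  · simp only [adc, map_add, MvPolynomial.map_C, h2, h.fam.pure]
  · rw [← h.top]
    simp only [Fam.top, adc, map_add, MvPolynomial.map_C]
    rw [← constantCoeff_kt, h2, map_zero, map_zero, add_zero]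

theorem at_adc (Z : Sys T W S) (x : Option S → T.ι → Lam ℝ W) (o : Option S) (A : Finset W)
    (a : T.ι) : (adc Z x).fam.at' o A a = Z.fam.at' o A a + MvPolynomial.C (evA A (x o a)) := by
  simp only [Fam.at', adc, map_add, MvPolynomial.map_C]

open Classical in
/-- constants on the cells at level `m` -/
def cx (m : ℕ) (γ : JF cl S → {a // T.lv a = m} → ℝ) (o : Option S) (a : T.ι) : Lam ℝ W :=
  ∑ j : JF cl S, if h : T.lv a = m ∧ o = some j.t ∧ j.A ∈ cells cl then
    MvPolynomial.C (γ j ⟨a, h.1⟩) * mon j.A m else 0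

theorem cx_ne (γ : JF cl S → {a // T.lv a = m} → ℝ) (o : Option S) {a : T.ι} (h : T.lv a ≠ m) :
    cx m γ o a = 0 := sum_eq_zero fun _ _ => dif_neg fun k => h k.1

theorem evA_cx (γ : JF cl S → {a // T.lv a = m} → ℝ) (j : JF cl S) (hj : j.A ∈ cells cl)
    (a : {a // T.lv a = m}) : evA j.A (cx m γ (some j.t) a) = γ j a := by
  rw [cx, map_sum, Fintype.sum_eq_single j, dif_pos ⟨a.2, rfl, hj⟩, map_mul, evA_C, evA_mon,
    if_pos subset_rfl, mul_one]
  intro k hk
  split_ifs with e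
  · rw [map_mul, evA_mon, if_neg, mul_zero]
    exact fun n => hk (JF.ext (cell_eq hj e.2.2 n) (Option.some.inj e.2.1).symm)
  · exact map_zero _

theorem ok_cx [Fintype C] (hm : Fintype.card C < m) {Z : Sys T W S} (h : Z.Ok)
    (γ : JF cl S → {a // T.lv a = m} → ℝ) : (adc Z (cx m γ)).Ok := by
  refine ok_adc h (fun o a => MvPolynomial.IsHomogeneous.sum _ _ _ fun j _ => ?_) fun o a => ?_
  · split_ifs with e
    · rw [e.1]; exact (mon_hom (card_lt hm j.h).le).C_mul _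
    · exact MvPolynomial.isHomogeneous_zero _ _ _
  · rw [cx, map_sum]
    refine sum_eq_zero fun j _ => ?_
    split_ifs with e
    · rw [map_mul, kt_mon, if_pos (card_lt hm j.h), mul_zero]
    · exact map_zero _

end

end Vale.Agent.P057GH
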