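import Vale.Agent.P057GH.Pb
import Vale.Agent.P057RH.Hom

/-! Cube systems on a grid as systems of variables on faces. -/

set_option linter.all false

open Matrix Finset Function
open Vale.Agent.P267.H775 Vale.Agent.P057G Vale.Agent.P057PC Vale.Agent.P057TP Vale.Agent.P057ST
open Vale.Agent.P057MA Vale.Agent.P057RH

namespace Vale.Agent.P057GH

noncomputable section

variable {C N : Type} [Fintype C] [DecidableEq C] [Fintype N] [DecidableEq N] {T : Tow} {m : ℕ}

/-- the labels of one cell -/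
abbrev L0 (T : Tow) (C : Type) (m : ℕ) := Lb T (id : C → C) Unit m

/-- the labels of the grid -/
abbrev LG (T : Tow) (C N : Type) (m : ℕ) := Lb T (Prod.fst : C × N → C) N m

open Classical in
/-- the classes of a label; `none` is the special class -/
def fc0 (l : L0 T C m) : Finset (Option C) :=
  univ.filter fun x => x.elim (l.bs ≠ none) fun i => i ∈ l.fc

theorem some_fc0 {l : L0 T C m} {i : C} : some i ∈ fc0 l ↔ i ∈ l.fc := by simp [fc0]
theorem none_fc0 {l : L0 T C m} : none ∈ fc0 l ↔ l.bs ≠ none := by simp [fc0]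

theorem fc0_sub {l l' : L0 T C m} :
    fc0 l' ⊆ fc0 l ↔ l'.fc ⊆ l.fc ∧ (l'.bs = none ∨ l'.bs = l.bs) := by
  refine ⟨fun h => ⟨fun i hi => some_fc0.1 (h (some_fc0.2 hi)), ?_⟩, fun h x hx => ?_⟩
  · refine or_iff_not_imp_left.2 fun e => ?_
    obtain ⟨a, h1⟩ := Option.ne_none_iff_exists'.1 e
    obtain ⟨b, h2⟩ := Option.ne_none_iff_exists'.1 (none_fc0.1 (h (none_fc0.2 e)))
    rw [h1, h2]
  · cases x with
    | none => exact none_fc0.2 ((h.2.resolve_left (none_fc0.1 hx)) ▸ none_fc0.1 hx)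
    | some i => exact some_fc0.2 (h.1 (some_fc0.1 hx))

/-- the vertices of a cell -/
def em (χ : Option C → N) (i : C) : C × N := (i, χ (some i))

theorem em_inj (χ : Option C → N) : Injective (em χ) := fun _ _ h => congrArg Prod.fst h

theorem unit_inj {α : Type} (x : α) : Injective fun _ : Unit => x := fun _ _ _ => rfl

theorem em_hc (χ : Option C → N) (w w' : C) :
    Prod.fst (em χ w) = Prod.fst (em χ w') ↔ id w = id w' := Iff.rfl

theorem fst_hc (w w' : C × N) : id (Prod.fst w) = id (Prod.fst w') ↔ Prod.fst w = Prod.fst w' :=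
  Iff.rfl

/-- the copy of a label in a cell -/
def lc (χ : Option C → N) : L0 T C m → LG T C N m := lift (em_hc χ) fun _ => χ none

theorem lc_fc (χ : Option C → N) (l : L0 T C m) : (lc χ l).fc = l.fc.image (em χ) := rfl
theorem lc_bs (χ : Option C → N) (l : L0 T C m) : (lc χ l).bs = l.bs.map fun _ => χ none := rfl

/-- the restriction of a system to a cell -/
def rc (Z : Sys T (C × N) N) (χ : Option C → N) : Sys T C Unit := pb Z (em χ) fun _ => χ none

/-- the local system -/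
abbrev S0 (T : Tow) (C : Type) [Fintype C] [DecidableEq C] (m : ℕ)
    (p : (L0 T C m → ℝ) → L0 T C m → ℝ) : MS (Option C) (L0 T C m) :=
  ⟨fc0, fun l => T.lv l.cd, Gam T id Unit m, p⟩

open Classical in
/-- the face given by a set of vertices and a base -/
def fo (A : Finset (C × N)) (o : Option N) : Fc (Option C) N :=
  fun x => x.elim o fun i => if h : ∃ n, (i, n) ∈ A then some h.choose else none

/-- the face of a label -/
def fl (l : LG T C N m) : Fc (Option C) N := fo l.fc l.bs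

theorem fo_some {A : Finset (C × N)} (hA : Set.InjOn Prod.fst (A : Set (C × N))) (o : Option N)
    {i : C} {n : N} : fo A o (some i) = some n ↔ (i, n) ∈ A := by
  simp only [fo, Option.elim]
  split_ifs with h
  · exact ⟨fun e => Option.some.inj e ▸ h.choose_spec,
      fun e => congrArg (fun w => some w.2) (hA h.choose_spec e rfl)⟩
  · exact ⟨fun e => absurd e (by simp), fun e => absurd ⟨n, e⟩ h⟩

theorem fl_some {l : LG T C N m} {i : C} {n : N} : fl l (some i) = some n ↔ (i, n) ∈ l.fc :=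
  fo_some l.2.2.1 _

theorem fl_none (l : LG T C N m) : fl l none = l.bs := rfl

theorem mem_lc {χ : Option C → N} {l : L0 T C m} {w : C × N} :
    w ∈ (lc χ l).fc ↔ w.1 ∈ l.fc ∧ χ (some w.1) = w.2 := by
  simp only [lc_fc, mem_image, em]
  exact ⟨fun ⟨v, h1, h2⟩ => h2 ▸ ⟨h1, rfl⟩, fun ⟨h1, h2⟩ => ⟨w.1, h1, by rw [h2]⟩⟩

theorem fl_lc (χ : Option C → N) (l : L0 T C m) (x : Option C) :
    fl (lc χ l) x = if x ∈ fc0 l then some (χ x) else none := by
  cases x with
  | none =>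
    simp only [fl_none, none_fc0, lc_bs]
    cases l.bs <;> simp
  | some i =>
    refine Option.ext fun n => ?_
    simp only [fl_some, mem_lc, some_fc0]
    split_ifs with h <;> simp [h]

theorem lg_ext {l l' : LG T C N m} (h1 : l.cd = l'.cd) (h2 : fl l = fl l') : l = l' :=
  lb_ext h1 (Finset.ext fun w => by rw [← fl_some, h2, fl_some]) (congrFun h2 none)

theorem lc_congr {χ χ' : Option C → N} {l : L0 T C m} (h : ∀ v ∈ fc0 l, χ v = χ' v) :
    lc χ l = lc χ' l := lg_ext rfl (funext fun x => by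
  rw [fl_lc, fl_lc]
  split_ifs with e
  exacts [by rw [h x e], rfl])

/-- the label of an index of the blow-up -/
def EE (c0 : N) (a : BI (fc0 : L0 T C m → _) c0) : LG T C N m := lc a.1.2 a.1.1

variable {c0 : N}

theorem fl_EE (a : BI (fc0 : L0 T C m → _) c0) : fl (EE c0 a) = fa a := funext (fl_lc _ _)

theorem EE_cp (χ : Option C → N) (l : L0 T C m) : EE c0 (cp fc0 c0 χ l) = lc χ l :=
  lc_congr fun _ hv => cp_snd χ hv

theorem fc0_ext {l l' : L0 T C m} (h : fc0 l = fc0 l') : l.fc = l'.fc ∧ l.bs = l'.bs := by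
  obtain ⟨h1, h2⟩ := fc0_sub.1 h.subset
  obtain ⟨h3, h4⟩ := fc0_sub.1 h.superset
  refine ⟨h1.antisymm h3, h2.elim (fun e => h4.elim (fun e' => e.trans e'.symm) Eq.symm) id⟩

theorem snd_of_fa {κ ι : Type} [Fintype κ] [DecidableEq κ] {fc : ι → Finset κ}
    {a b : BI fc c0} (h : fa a = fa b) : a.1.2 = b.1.2 := by
  funext v
  have h1 := congrFun h v
  unfold fa at h1
  split_ifs at h1 with e1 e2
  exacts [Option.some.inj h1, (a.2 v e1).trans (b.2 v ‹_›).symm]

theorem EE_bij (c0 : N) : Bijective (EE c0 : BI (fc0 : L0 T C m → _) c0 → _) := by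
  refine ⟨fun a b h => ?_, fun l => ?_⟩
  · have h1 : fa a = fa b := by rw [← fl_EE, h, fl_EE]
    have h2 := fc0_ext ((sp_fa a).symm.trans ((congrArg sp h1).trans (sp_fa b)))
    exact Subtype.ext (Prod.ext (lb_ext (congrArg Lb.cd h :) h2.1 h2.2) (snd_of_fa h1))
  · refine ⟨cp fc0 c0 (ch c0 (fl l)) (lift fst_hc
      (fun _ => ()) l), (EE_cp _ _).trans (lg_ext rfl (funext fun x => ?_))⟩
    rw [fl_lc]
    have : x ∈ fc0 (lift fst_hc (fun _ => ()) l) ↔
        fl l x ≠ none := by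
      cases x with
      | none => simp [none_fc0, lift_bs, fl_none]
      | some i => simp [some_fc0, lift_fc, Option.ne_none_iff_exists', fl_some]
    rw [if_congr this rfl rfl, ch]
    cases fl l x <;> simp

theorem orth0 (l l' : L0 T C m) (h : Gam T id Unit m l l' ≠ 0) : fc0 l = fc0 l' := by
  have : l.fc = l'.fc ∧ l.bs = l'.bs := by
    by_contra e; exact h (if_neg e)
  unfold fc0
  rw [this.1, this.2]

theorem G_EE (p : (L0 T C m → ℝ) → L0 T C m → ℝ) (a b : BI (fc0 : L0 T C m → _) c0) :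
    (blow (S0 T C m p) c0).G a b = Gam T Prod.fst N m (EE c0 a) (EE c0 b) := by
  by_cases h : a.1.2 = b.1.2
  · refine (if_pos h).trans ?_
    rw [EE, EE, h]
    exact (Gam_lift _ (em_inj _) (unit_inj _) _ _).symm
  · refine (if_neg h).trans (if_neg fun e => h (snd_of_fa ?_)).symm
    rw [← fl_EE, ← fl_EE, fl, fl, e.1, e.2]

theorem pr_loc {C W S : Type} [Fintype W] [DecidableEq W] [Fintype S] {cl : W → C}
    (Z : Sys T W S) {x x' : Lb T cl S m → ℝ} {l : Lb T cl S m}
    (hx : ∀ l', l'.fc ⊆ l.fc → (l'.bs = none ∨ l'.bs = l.bs) → x l' = x' l') :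
    Z.pr cl m x l = Z.pr cl m x' l :=
  sum_congr rfl fun B hB => by
    rw [show pt x l.bs B = pt x' l.bs B from funext fun j =>
      pt_congr fun l' _ h2 h3 => hx l' (h2.trans (mem_powerset.1 hB)) h3]

theorem lk0 (hG : T.G.PosDef) (Z : Sys T C Unit) : Lk (S0 T C m (Z.pr id m)) :=
  ⟨pd_Gam hG _ _ _, orth0, fun _ _ _ h => pr_loc Z fun l' h1 h2 => h l' (fc0_sub.2 ⟨h1, h2⟩)⟩

theorem trs0 {s : ℕ} {M : ℝ} (hT : T.Ok s M) {Z : Sys T C Unit} (h : Z.Ok) :
    Trs (S0 T C m (Z.pr id m)) := fun _ _ _ k => pr_congr hT h fun l' _ _ h3 => k l' h3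

theorem lz_EE {α : Type} [Zero α] (x : LG T C N m → α) (φ : Fc (Option C) N) (l : L0 T C m) :
    lz fc0 c0 (x ∘ EE c0) φ l = if fc0 l ⊆ sp φ then x (lc (ch c0 φ) l) else 0 := by
  simp only [lz, Function.comp, EE_cp]

/-- the local weights of a system on the grid -/
def hz (Z : Sys T (C × N) N) (m : ℕ) (c0 : N) (φ : Fc (Option C) N)
    (u : Vw (Option C) (L0 T C m → ℤ)) : ℝ :=
  nu (S0 T C m ((rc Z (ch c0 φ)).pr id m)) univ (sp φ) u

/-- the configuration on faces -/
def cz (c0 : N) (x : LG T C N m → ℤ) : Fc (Option C) N → L0 T C m → ℤ := cf fc0 c0 (x ∘ EE c0)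

theorem uz_cz (x : LG T C N m → ℤ) (φ : Fc (Option C) N) (l : L0 T C m) :
    uz fc0 (vw (cz c0 x) φ) l = if fc0 l ⊆ sp φ then x (lc (ch c0 φ) l) else 0 := by
  rw [cz, uz_vw, lz_EE]

theorem cz_fl (x : LG T C N m → ℤ) (χ : Option C → N) (l : L0 T C m) :
    cz c0 x (fl (lc χ l)) l = x (lc χ l) := by
  rw [← EE_cp (c0 := c0), fl_EE]
  exact cf_fa (x ∘ EE c0) (cp fc0 c0 χ l)

theorem hz_nonneg (hG : T.G.PosDef) (Z : Sys T (C × N) N) (φ : Fc (Option C) N)
    (u : Vw (Option C) (L0 T C m → ℤ)) : 0 ≤ hz Z m c0 φ u :=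
  nu_nonneg (S := S0 T C m _) (pd_Gam hG _ _ _) _ _ _

theorem het_p (Z : Sys T (C × N) N) (x : LG T C N m → ℝ) (a : BI (fc0 : L0 T C m → _) c0) :
    (het (S0 T C m 0) c0 fun φ => (rc Z (ch c0 φ)).pr id m).p (x ∘ EE c0) a =
      Z.pr Prod.fst m x (EE c0 a) := by
  have e : EE c0 a = lc (ch c0 (fa a)) a.1.1 := by rw [← EE_cp (c0 := c0), (fa_eq.1 rfl).2]
  rw [e, lc, ← pr_lift _ (em_inj _) (unit_inj _)]
  refine pr_loc _ fun l' h1 h2 => ?_
  refine (lz_EE x _ l').trans (if_pos ?_)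
  rw [sp_fa]
  exact fc0_sub.2 ⟨h1, h2⟩

variable {L : Type} [Fintype L] [DecidableEq L] {e : L → LG T C N m} {K : Fc (Option C) N → Prop}

open Classical in
/-- the terms of the face sum -/
theorem tm_cz (hG : T.G.PosDef) (he : Injective e) (hK : ∀ l, l ∈ Set.range e ↔ K (fl l))
    (Z : Sys T (C × N) N) (g : Fc (Option C) N → Vw (Option C) (L0 T C m → ℤ) → ℝ) (x : L → ℤ) :
    tm (fun _ _ => 1) 0 K (fun φ u => hz Z m c0 φ u * g φ u) (cz c0 (extend e x 0)) =
      ng ((Gam T Prod.fst N m).submatrix e e)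
          (toR x - fun i => Z.pr Prod.fst m (toR (extend e x 0)) (e i)) *
        ∏ φ, if K φ then g φ (vw (cz c0 (extend e x 0)) φ) else 1 := by
  obtain ⟨E, hE⟩ : ∃ E : BI (fc0 : L0 T C m → _) c0 ≃ LG T C N m, ∀ a, E a = EE c0 a :=
    ⟨Equiv.ofBijective _ (EE_bij c0), fun _ => rfl⟩
  have e1 : ∀ l, EE c0 (E.symm l) = l := fun l => by rw [← hE, E.apply_symm_apply]
  have e2 : qk (fc0 : L0 T C m → _) c0 univ K = univ.image fun i => E.symm (e i) := by
    ext a
    simp only [mem_qk, mem_univ, true_and, mem_image, ← fl_EE, ← hK, E.symm_apply_eq, hE,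
      Set.mem_range]
  have e3 : Injective fun i => E.symm (e i) := E.symm.injective.comp he
  have e4 : ∀ i ∈ (univ : Finset L), ∀ j ∈ (univ : Finset L), (blow (S0 T C m 0) c0).G
      (E.symm (e i)) (E.symm (e j)) = (Gam T Prod.fst N m).submatrix e e i j := fun i _ j _ => by
    rw [G_EE, e1, e1]; rfl
  refine (tm_het (S := S0 T C m 0) (pd_Gam hG _ _ _) orth0 _ g _).trans ?_
  simp only [← vw_cf]
  congr 1
  rw [MS.wt, if_pos, e2]
  · refine congrArg₂ _ ?_ ((vl_image e3 e4).trans (vl_univ _))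
    rw [gs, gs]
    congr 3
    refine (qq_msk_image e3 e4 _).trans ?_
    congr 1
    funext i
    rw [msk_pos _ (mem_univ i)]
    refine congrArg₂ (· - ·) ?_ ((het_p Z (toR (extend e x 0)) (E.symm (e i))).trans (by rw [e1]))
    simp only [toR_apply, Function.comp, e1, he.extend_apply]
  · intro a ha
    refine extend_apply' _ _ _ fun k => ha (mem_qk.2 ⟨mem_univ _, ?_⟩)
    rw [← fl_EE]
    exact (hK _).1 k

theorem cz_inj (he : Injective e) : Injective fun x : L → ℤ => cz c0 (extend e x 0) :=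
  fun x x' h => funext fun i => by
    obtain ⟨a, ha⟩ := (EE_bij c0).2 (e i)
    have := congrFun (cf_inj h) a
    simpa only [Function.comp, ha, he.extend_apply] using this

theorem cz_range (hG : T.G.PosDef) (he : Injective e) (hK : ∀ l, l ∈ Set.range e ↔ K (fl l))
    (Z : Sys T (C × N) N) (g : Fc (Option C) N → Vw (Option C) (L0 T C m → ℤ) → ℝ)
    (a : Fc (Option C) N → L0 T C m → ℤ)
    (ha : tm (fun _ _ => 1) 0 K (fun φ u => hz Z m c0 φ u * g φ u) a ≠ 0) :
    a ∈ Set.range fun x : L → ℤ => cz c0 (extend e x 0) := by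
  obtain ⟨z, rfl⟩ := range_het (S := S0 T C m 0) c0 _ _ g a ha
  have h1 := left_ne_zero_of_mul
    ((tm_het (S := S0 T C m 0) (pd_Gam hG _ _ _) orth0 _ g z).symm.trans_ne ha)
  refine ⟨fun i => z (surjInv (EE_bij c0).2 (e i)), congrArg (cf fc0 c0) (funext fun b => ?_)⟩
  by_cases k : ∃ i, e i = EE c0 b
  · obtain ⟨i, hi⟩ := k
    rw [Function.comp_apply, ← hi, he.extend_apply, hi, leftInverse_surjInv (EE_bij c0) b]
  · rw [Function.comp_apply, extend_apply' _ _ _ k]
    by_contra h0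
    refine h1 ?_
    rw [MS.wt_eq_zero (fun n => k ((hK _).2 ?_)) (Ne.symm h0), zero_div]
    rw [fl_EE]
    exact (mem_qk.1 n).2

/-- face sums are sums over labels -/
theorem face_tsum (hG : T.G.PosDef) (he : Injective e) (hK : ∀ l, l ∈ Set.range e ↔ K (fl l))
    (Z : Sys T (C × N) N) (g : Fc (Option C) N → Vw (Option C) (L0 T C m → ℤ) → ℝ) {E : Type}
    [AddCommMonoid E] [TopologicalSpace E] (Φ : (Fc (Option C) N → L0 T C m → ℤ) → ℝ → E)
    (h0 : ∀ a, Φ a 0 = 0) :
    ∑' a, Φ a (tm (fun _ _ => 1) 0 K (fun φ u => hz Z m c0 φ u * g φ u) a) =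
      ∑' x : L → ℤ, Φ (cz c0 (extend e x 0))
        (tm (fun _ _ => 1) 0 K (fun φ u => hz Z m c0 φ u * g φ u) (cz c0 (extend e x 0))) :=
  ((cz_inj he).tsum_eq fun a ha => cz_range hG he hK Z g a fun k => ha (by rw [k, h0])).symm

theorem summable_hz {s : ℕ} {M : ℝ} (hT : T.Ok s M) {Z : Fc (Option C) N → Sys T C Unit}
    (h : ∀ φ, (Z φ).Ok) (c0 : N) {g : Fc (Option C) N → Vw (Option C) (L0 T C m → ℤ) → ℝ} {B : ℝ}
    (hg : ∀ φ u, |g φ u| ≤ B) : Summable (tm (fun _ _ => 1) 0 K fun φ u =>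
      nu (S0 T C m ((Z φ).pr id m)) univ (sp φ) u * g φ u) :=
  summable_het (S := S0 T C m 0) (pd_Gam hT.pd _ _ _) orth0 c0 (fun φ => trs0 hT (h φ)) hg

/-- the local weight on a face depends only on the polynomials on its subfaces -/
theorem nu_ext {Z Z' : Sys T C Unit} {U : Finset (Option C)}
    (h : ∀ (o : Option Unit) (B : Finset C), (o ≠ none → none ∈ U) → (∀ i ∈ B, some i ∈ U) →
      ∀ a, Z.fam.at' o B a = Z'.fam.at' o B a) (u : Vw (Option C) (L0 T C m → ℤ)) :
    nu (S0 T C m (Z.pr id m)) univ U u = nu (S0 T C m (Z'.pr id m)) univ U u := by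
  unfold nu
  congr 3
  refine msk_congr fun l hl => ?_
  have e := (mem_qf.1 hl).2.subset
  exact congrArg (_ - ·) (pr_ext (fun B hB => h _ B (fun k => e (none_fc0.2 k))
    (fun i hi => e (some_fc0.2 (hB hi))) _) _)

theorem at_rc (Z : Sys T (C × N) N) (χ : Option C → N) (o : Option Unit) (B : Finset C) (a : T.ι) :
    (rc Z χ).fam.at' o B a = Z.fam.at' (o.map fun _ => χ none) (B.image (em χ)) a :=
  at_pb _ _ _ (em_inj χ).injOn a

theorem nu_rc (Z : Sys T (C × N) N) {χ χ' : Option C → N} {U : Finset (Option C)}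
    (h : ∀ v ∈ U, χ v = χ' v) (u : Vw (Option C) (L0 T C m → ℤ)) :
    nu (S0 T C m ((rc Z χ).pr id m)) univ U u = nu (S0 T C m ((rc Z χ').pr id m)) univ U u :=
  nu_ext (fun o B h1 h2 a => by
    rw [at_rc, at_rc, image_congr (g := em χ') fun i hi => by rw [em, em, h _ (h2 i hi)]]
    cases o with
    | none => rfl
    | some t => rw [Option.map_some, Option.map_some, h _ (h1 (by simp))]) u

theorem ch_col (t : Option C → N) (φ : Fc (Option C) N) :
    ∀ v ∈ sp φ, ch c0 (P057RH.col t φ) v = t v := fun v hv => by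
  obtain ⟨l, hl⟩ := Option.ne_none_iff_exists'.1 (mem_sp.1 hv)
  simp [ch, P057RH.col, hl]

theorem hz_col (Z : Sys T (C × N) N) (t : Option C → N) (φ : Fc (Option C) N)
    (u : Vw (Option C) (L0 T C m → ℤ)) :
    hz Z m c0 (P057RH.col t φ) u = nu (S0 T C m ((rc Z t).pr id m)) univ (sp φ) u := by
  rw [hz, sp_col]
  exact nu_rc Z (ch_col t φ) u

end

end Vale.Agent.P057GH
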